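import Vale.Agent.P082.Every.Iface

/-!
# P082 C2: normal functionals on a finite algebra (interfaces)
-/

namespace Vale.Agent.P082.Every.C2

open scoped InnerProductSpace ComplexOrder

universe u

variable {H : Type u} [NormedAddCommGroup H] [InnerProductSpace ℂ H] [CompleteSpace H]
variable {M : VonNeumannAlgebra H}

/-- The functional `x ↦ ⟪η, x ξ⟫` on `M`. -/
noncomputable def vecF (M : VonNeumannAlgebra H) (η ξ : H) : Alg M →L[ℂ] ℂ :=
  LinearMap.mkContinuous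
    { toFun := fun x => ⟪η, ev ξ x⟫_ℂ
      map_add' := fun x y => by simp [ev, inner_add_right]
      map_smul' := fun c x => by simp [ev, inner_smul_right] }
    (‖η‖ * ‖ξ‖) fun x => by
      show ‖⟪η, ev ξ x⟫_ℂ‖ ≤ _
      refine (norm_inner_le_norm _ _).trans ?_
      calc ‖η‖ * ‖(x : H →L[ℂ] H) ξ‖ ≤ ‖η‖ * (‖x‖ * ‖ξ‖) :=
            mul_le_mul_of_nonneg_left ((x : H →L[ℂ] H).le_opNorm ξ) (norm_nonneg η)
        _ = ‖η‖ * ‖ξ‖ * ‖x‖ := by ring

@[simp]
theorem vecF_apply (η ξ : H) (x : Alg M) : vecF M η ξ x = ⟪η, ev ξ x⟫_ℂ := rfl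

/-- A downward directed set of projections of `M` that decreases strongly to `0`. -/
structure IsDown (s : Set (Alg M)) : Prop where
  proj : ∀ a ∈ s, IsStarProjection a
  nonempty : s.Nonempty
  directed : ∀ a ∈ s, ∀ b ∈ s, ∃ c ∈ s, c * a = c ∧ c * b = c
  tendsto : ∀ (v : H) (ε : ℝ), 0 < ε → ∃ a ∈ s, ‖ev v a‖ < ε

/-- A positive functional that is completely additive (normal). -/
structure IsNormalPos (ψ : Alg M →L[ℂ] ℂ) : Prop where
  pos : ∀ x, 0 ≤ ψ (star x * x)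
  small : ∀ s : Set (Alg M), IsDown s → ∀ ε : ℝ, 0 < ε → ∃ a ∈ s, (ψ a).re ≤ ε

/-- (a) Unitary orbits of vectors are uniformly small along decreasing projections. -/
def StmtOrbit.{v} : Prop :=
  ∀ (H : Type v) [NormedAddCommGroup H] [InnerProductSpace ℂ H] [CompleteSpace H]
    (M : VonNeumannAlgebra H), IsFiniteVN M → ∀ s : Set (Alg M), IsDown s →
      ∀ (η : H) (ε : ℝ), 0 < ε → ∃ a ∈ s, ∀ u ∈ unitary (Alg M), ‖ev (ev η u) a‖ ≤ ε

/-- (b1) Normal positive functionals are norm limits of sums of vector functionals. -/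
def StmtVecApprox.{v} : Prop :=
  ∀ (H : Type v) [NormedAddCommGroup H] [InnerProductSpace ℂ H] [CompleteSpace H]
    (M : VonNeumannAlgebra H) (ψ : Alg M →L[ℂ] ℂ), IsNormalPos ψ → ∀ ε : ℝ, 0 < ε →
      ∃ (n : ℕ) (η ξ : Fin n → H), ‖ψ - ∑ i, vecF M (η i) (ξ i)‖ ≤ ε

/-- (b2) Normal tracial functionals are sums of vector states. -/
def StmtTraceVec.{v} : Prop :=
  ∀ (H : Type v) [NormedAddCommGroup H] [InnerProductSpace ℂ H] [CompleteSpace H]
    (M : VonNeumannAlgebra H) (ψ : Alg M →L[ℂ] ℂ), IsNormalPos ψ →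
      (∀ x y, ψ (x * y) = ψ (y * x)) →
      ∃ ξ : ℕ → H, Summable (fun n => ‖ξ n‖ ^ 2) ∧
        ∀ x, ψ (star x * x) = ((∑' n, ‖ev (ξ n) x‖ ^ 2 : ℝ) : ℂ)

/-- (c) An invariant normal functional with the mass of a given vector. -/
def StmtFixed.{v} : Prop :=
  ∀ (H : Type v) [NormedAddCommGroup H] [InnerProductSpace ℂ H] [CompleteSpace H]
    (M : VonNeumannAlgebra H), IsFiniteVN M → ∀ η : H,
      ∃ ψ : Alg M →L[ℂ] ℂ, IsNormalPos ψ ∧ (∀ x y, ψ (x * y) = ψ (y * x)) ∧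
        ∀ c : Alg M, (∀ x, c * x = x * c) → ψ c = ⟪η, ev η c⟫_ℂ

end Vale.Agent.P082.Every.C2
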