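import Mathlib

/-!
# P082 C2: dentability of norm separable weak* compact convex sets
-/

namespace Vale.Agent.P082.Every.C2

open scoped Topology Pointwise
open Set

universe u

variable {F : Type*} [AddCommGroup F] [Module ℝ F] [TopologicalSpace F] [ContinuousAdd F]
  [ContinuousSMul ℝ F]

/-- The join of two compact sets is compact. -/
theorem isCompact_convexJoin {A B : Set (F)} (hA : IsCompact A) (hB : IsCompact B) :
    IsCompact (convexJoin ℝ A B) := by
  have h : convexJoin ℝ A B =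
      (fun p : ℝ × F × F => (1 - p.1) • p.2.1 + p.1 • p.2.2) ''
        (Icc (0 : ℝ) 1 ×ˢ A ×ˢ B) := by
    ext x
    constructor
    · intro hx
      obtain ⟨a, ha, b, hb, hseg⟩ := mem_convexJoin.1 hx
      rw [segment_eq_image] at hseg
      obtain ⟨t, ht, rfl⟩ := hseg
      exact ⟨(t, a, b), ⟨ht, ha, hb⟩, rfl⟩
    · rintro ⟨⟨t, a, b⟩, ⟨ht, ha, hb⟩, rfl⟩
      refine mem_convexJoin.2 ⟨a, ha, b, hb, ?_⟩
      rw [segment_eq_image]
      exact ⟨t, ht, rfl⟩
  rw [h]
  exact (isCompact_Icc.prod (hA.prod hB)).image (by fun_prop)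

theorem convexJoin_subset_of_convex {L A B : Set (F)} (hLc : Convex ℝ L) (hA : A ⊆ L)
    (hB : B ⊆ L) : convexJoin ℝ A B ⊆ L := fun x hx => by
  obtain ⟨a, ha, b, hb, hseg⟩ := mem_convexJoin.1 hx
  exact hLc.segment_subset (hA ha) (hB hb) hseg

theorem convex_closure_gen {A : Set F} (hA : Convex ℝ A) : Convex ℝ (closure A) :=
  fun x hx y hy a b ha hb hab => map_mem_closure₂ (f := fun u v : F => a • u + b • v)
    (by fun_prop) hx hy fun u hu v hv => hA hu hv ha hb hab

/-- Finitely many compact convex pieces avoiding an extreme point fit into one of them. -/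
theorem exists_convex_cover {L : Set (F)} (hLc : Convex ℝ L)
    {e : F} (he : e ∈ L.extremePoints ℝ) {ι : Type*} (t : Finset ι)
    (S : ι → Set (F))
    (hS : ∀ i ∈ t, IsCompact (S i) ∧ Convex ℝ (S i) ∧ e ∉ S i ∧ S i ⊆ L) :
    ∃ A, IsCompact A ∧ Convex ℝ A ∧ e ∉ A ∧ A ⊆ L ∧ ∀ i ∈ t, S i ⊆ A := by
  classical
  induction t using Finset.induction with
  | empty => exact ⟨∅, isCompact_empty, convex_empty, notMem_empty e, empty_subset L, by simp⟩
  | insert i t hi ih =>
    obtain ⟨A, hA, hAc, hAe, hAL, hAS⟩ := ih fun j hj => hS j (Finset.mem_insert_of_mem hj)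
    obtain ⟨hSi, hSic, hSie, hSiL⟩ := hS i (Finset.mem_insert_self i t)
    rcases A.eq_empty_or_nonempty with rfl | hne
    · refine ⟨S i, hSi, hSic, hSie, hSiL, fun j hj => ?_⟩
      rcases Finset.mem_insert.1 hj with rfl | hj
      · exact subset_rfl
      · exact (hAS j hj).trans (empty_subset _)
    rcases (S i).eq_empty_or_nonempty with h0 | hne'
    · refine ⟨A, hA, hAc, hAe, hAL, fun j hj => ?_⟩
      rcases Finset.mem_insert.1 hj with rfl | hj
      · rw [h0]; exact empty_subset _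
      · exact hAS j hj
    refine ⟨convexJoin ℝ A (S i), isCompact_convexJoin hA hSi, hAc.convexJoin hSic, fun hmem => ?_,
      convexJoin_subset_of_convex hLc hAL hSiL, fun j hj => ?_⟩
    · obtain ⟨a, ha, b, hb, hseg⟩ := mem_convexJoin.1 hmem
      rcases eq_or_ne e a with rfl | hea
      · exact hAe ha
      rcases eq_or_ne e b with rfl | heb
      · exact hSie hb
      exact hea ((mem_extremePoints.1 he).2 a (hAL ha) b (hSiL hb)
        (mem_openSegment_of_ne_left_right hea.symm heb.symm hseg)).1.symm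
    · rcases Finset.mem_insert.1 hj with rfl | hj
      · exact subset_convexJoin_right hne
      · exact (hAS j hj).trans (subset_convexJoin_left hne')

/-- A nonempty compact convex set which is separable for a finer norm has a large compact convex
subset whose complement is small in norm. -/
theorem exists_dent [IsTopologicalAddGroup F] [T2Space F] [LocallyConvexSpace ℝ F] {X : Type*}
    [NormedAddCommGroup X] [NormedSpace ℝ X] (T : F →ₗ[ℝ] X)
    (hT : ∀ d r, IsClosed (T ⁻¹' Metric.closedBall d r))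
    {L : Set F} (hL : IsCompact L) (hLc : Convex ℝ L)
    (hne : L.Nonempty) {R : ℝ} (hR : ∀ ψ ∈ L, ‖T ψ‖ ≤ R)
    (hsep : TopologicalSpace.IsSeparable (T '' L)) {δ : ℝ} (hδ : 0 < δ) :
    ∃ C, IsCompact C ∧ Convex ℝ C ∧ ¬ L ⊆ C ∧ ∀ x ∈ L, x ∉ C → ∀ y ∈ L, y ∉ C →
      ‖T x - T y‖ ≤ δ := by
  classical
  have hR0 : 0 ≤ R := (norm_nonneg _).trans (hR _ hne.some_mem)
  -- the closure of the extreme points and a small relatively open piece of it
  set C0 := closure (L.extremePoints ℝ) with hC0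
  have hC0L : C0 ⊆ L := closure_minimal extremePoints_subset hL.isClosed
  have hC0c : IsCompact C0 := hL.of_isClosed_subset isClosed_closure hC0L
  obtain ⟨cs, hcs, hcsd⟩ := hsep
  have : Countable cs := hcs.to_subtype
  have : CompactSpace C0 := isCompact_iff_compactSpace.1 hC0c
  have : Nonempty C0 :=
    ⟨⟨(hL.extremePoints_nonempty hne).some, subset_closure (hL.extremePoints_nonempty hne).some_mem⟩⟩
  set B : X → Set F := fun d =>
    T ⁻¹' Metric.closedBall d (δ / 6) with hB
  have hcover : (⋃ d : cs, (Subtype.val ⁻¹' B d : Set C0)) = univ := eq_univ_of_forall fun x => by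
    obtain ⟨d, hd, hdx⟩ := Metric.mem_closure_iff.1 (hcsd ⟨x, hC0L x.2, rfl⟩) (δ / 6) (by linarith)
    exact mem_iUnion.2 ⟨⟨d, hd⟩, Metric.mem_closedBall.2 hdx.le⟩
  obtain ⟨⟨d, hd⟩, hint⟩ := nonempty_interior_of_iUnion_of_closed
    (fun d : cs => (hT (d : X) (δ / 6)).preimage
      continuous_subtype_val) hcover
  obtain ⟨W, hW, hWeq⟩ := isOpen_induced_iff.1
    (isOpen_interior : IsOpen (interior (Subtype.val ⁻¹' B d : Set C0)))
  have hWB : ∀ x ∈ C0, x ∈ W → x ∈ B d := fun x hx hxW => by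
    have : (⟨x, hx⟩ : C0) ∈ Subtype.val ⁻¹' W := hxW
    rw [hWeq] at this
    exact interior_subset (s := (Subtype.val ⁻¹' B d : Set C0)) this
  obtain ⟨x0, hx0⟩ := hint
  rw [← hWeq] at hx0
  obtain ⟨e, heW, he⟩ := mem_closure_iff.1 x0.2 W hW hx0
  -- half spaces covering the rest
  have hhalf : ∀ p ∈ C0 \ W, ∃ H : Set F, IsClosed H ∧ Convex ℝ H ∧ e ∉ H ∧
      H ∈ 𝓝 p := by
    rintro p ⟨hp, hpW⟩
    have hne' : p ≠ e := fun h => hpW (h ▸ heW)
    obtain ⟨f, hf⟩ := geometric_hahn_banach_point_point (E := F) hne'.symm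
    refine ⟨{q | (f e + f p) / 2 ≤ f q}, isClosed_le continuous_const f.continuous,
      convex_halfSpace_ge f.toLinearMap.isLinear _, by simp only [mem_setOf_eq, not_le]; linarith, ?_⟩
    exact Filter.mem_of_superset ((isOpen_lt continuous_const f.continuous).mem_nhds
      (show (f e + f p) / 2 < f p by linarith)) fun q (hq : _ < f q) => hq.le
  choose! Hf hHc hHconv hHe hHn using hhalf
  obtain ⟨t, ht, hcov⟩ := (hC0c.diff hW).elim_nhds_subcover Hf hHn
  obtain ⟨A, hA, hAc, hAe, hAL, hAS⟩ := exists_convex_cover hLc he t (fun p => L ∩ Hf p)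
    fun p hp => ⟨hL.inter_right (hHc p (ht p hp)), hLc.inter (hHconv p (ht p hp)),
      fun h => hHe p (ht p hp) h.2, inter_subset_left⟩
  -- Krein-Milman: the two pieces generate
  set Bd := L ∩ B d with hBd
  have hBdc : IsCompact Bd := hL.inter_right (hT d (δ / 6))
  have hBdv : Convex ℝ Bd := hLc.inter
    ((convex_closedBall d (δ / 6)).linear_preimage T)
  have heB : e ∈ Bd := ⟨he.1, hWB e (subset_closure he) heW⟩
  have hext : L.extremePoints ℝ ⊆ A ∪ Bd := fun x hx => by
    by_cases hxW : x ∈ W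
    · exact Or.inr ⟨hx.1, hWB x (subset_closure hx) hxW⟩
    · obtain ⟨p, hp, hxp⟩ := mem_iUnion₂.1 (hcov ⟨subset_closure hx, hxW⟩)
      exact Or.inl (hAS p hp ⟨hx.1, hxp⟩)
  have hdiff : ∀ C : Set F, IsClosed C → Convex ℝ C → L.extremePoints ℝ ⊆ C → L ⊆ C :=
    fun C h1 h2 h3 => by
      rw [← closure_convexHull_extremePoints hL hLc]
      exact closure_minimal (convexHull_min h3 h2) h1
  rcases A.eq_empty_or_nonempty with rfl | hAne
  · refine ⟨∅, isCompact_empty, convex_empty, fun h => absurd (h he.1) (notMem_empty e),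
      fun x hx _ y hy _ => ?_⟩
    have hLB : L ⊆ Bd := hdiff Bd hBdc.isClosed hBdv (by simpa using hext)
    have h1 := Metric.mem_closedBall.1 (hLB hx).2
    have h2 := Metric.mem_closedBall.1 (hLB hy).2
    rw [← dist_eq_norm]
    linarith [dist_triangle_right (T x) (T y) d]
  have hLj : L ⊆ convexJoin ℝ A Bd := by
    refine hdiff _ (isCompact_convexJoin hA hBdc).isClosed (hAc.convexJoin hBdv) fun x hx => ?_
    rcases hext hx with h | h
    · exact subset_convexJoin_left ⟨e, heB⟩ h
    · exact subset_convexJoin_right hAne h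
  set r : ℝ := min (1 / 2) (δ / (12 * (R + 1))) with hr
  have hr0 : 0 < r := lt_min (by norm_num) (by positivity)
  have hr1 : r < 1 := (min_le_left _ _).trans_lt (by norm_num)
  refine ⟨r • A + (1 - r) • L, (hA.smul r).add (hL.smul (1 - r)), (hAc.smul r).add (hLc.smul _),
    fun hsub => ?_, ?_⟩
  · obtain ⟨x, ⟨a, ha, rfl⟩, y, ⟨l, hl, rfl⟩, hxy⟩ := Set.mem_add.1 (hsub he.1)
    have hseg : e ∈ openSegment ℝ a l := ⟨r, 1 - r, hr0, by linarith, by ring, hxy⟩
    have hea := ((mem_extremePoints.1 he).2 a (hAL ha) l hl hseg).1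
    exact hAe (hea ▸ ha)
  · have key : ∀ x ∈ L, x ∉ r • A + (1 - r) • L →
        ‖T x - d‖ ≤ δ / 2 := fun x hx hxC => by
      obtain ⟨a, ha, b, hb, hseg⟩ := mem_convexJoin.1 (hLj hx)
      obtain ⟨p, q, hp, hq, hpq, rfl⟩ := hseg
      have hpr : p < r := by
        by_contra hle
        push Not at hle
        refine hxC ⟨r • a, ⟨a, ha, rfl⟩, (p - r) • a + q • b,
          ⟨((p - r) / (1 - r)) • a + (q / (1 - r)) • b,
            hLc (hAL ha) hb.1 (div_nonneg (by linarith) (by linarith))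
              (div_nonneg hq (by linarith)) ?_, ?_⟩, ?_⟩
        · rw [← add_div, div_eq_one_iff_eq (by linarith)]; linarith
        · show (1 - r) • (_ + _) = _
          rw [smul_add, smul_smul, smul_smul, mul_div_cancel₀ _ (by linarith),
            mul_div_cancel₀ _ (by linarith)]
        · show r • a + ((p - r) • a + q • b) = p • a + q • b
          rw [← add_assoc, ← add_smul, add_sub_cancel]
      have h1 : ‖T b - d‖ ≤ δ / 6 := by
        rw [← dist_eq_norm]; exact Metric.mem_closedBall.1 hb.2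
      have hR' : ∀ z ∈ L, ‖T z‖ ≤ R := hR
      set φ := T a with hφ
      set χ := T b with hχ
      have hx' : T (p • a + q • b) = p • φ + q • χ := by rw [map_add, map_smul, map_smul]
      have h2 : p • φ + q • χ - d = p • (φ - χ) + (χ - d) := by
        rw [show q = 1 - p by linarith, smul_sub, sub_smul, one_smul]; abel
      rw [hx', h2]
      refine (norm_add_le _ _).trans ?_
      rw [norm_smul, Real.norm_of_nonneg hp]
      have h3 : ‖φ - χ‖ ≤ 2 * R := (norm_sub_le _ _).trans (by linarith [hR' a (hAL ha), hR' b hb.1])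
      have h4 : p * ‖φ - χ‖ ≤ δ / 6 := by
        refine (mul_le_mul hpr.le h3 (norm_nonneg _) hr0.le).trans ?_
        refine (mul_le_mul_of_nonneg_right (min_le_right _ _) (by positivity)).trans ?_
        rw [div_mul_eq_mul_div, div_le_div_iff₀ (by positivity) (by norm_num)]
        nlinarith
      linarith
    intro x hx hxC y hy hyC
    have h1 := key x hx hxC
    have h2 := key y hy hyC
    calc ‖T x - T y‖
        ≤ ‖T x - d‖ + ‖d - T y‖ := norm_sub_le_norm_sub_add_norm_sub _ _ _
      _ ≤ δ := by rw [norm_sub_rev d]; linarith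

section

variable {E : Type*} [NormedAddCommGroup E] [NormedSpace ℂ E]

theorem convex_closure_weakDual {A : Set (WeakDual ℂ E)} (hA : Convex ℝ A) :
    Convex ℝ (closure A) := fun x hx y hy a b ha hb hab =>
  map_mem_closure₂ (f := fun u v : WeakDual ℂ E => a • u + b • v)
    (WeakDual.continuous_of_continuous_eval fun z =>
      (((WeakDual.eval_continuous z).comp continuous_fst).const_smul a).add
        (((WeakDual.eval_continuous z).comp continuous_snd).const_smul b))
    hx hy fun u hu v hv => hA hu hv ha hb hab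

theorem convex_evalZero (x : E) : Convex ℝ {χ : WeakDual ℂ E | χ x = 0} := by
  intro φ hφ χ hχ a b _ _ _
  show a • φ x + b • χ x = 0
  rw [hφ, hχ, smul_zero, smul_zero, add_zero]

/-- The dentability statement in a weak* dual. -/
theorem exists_dent_weakDual (T : WeakDual ℂ E →ₗ[ℝ] StrongDual ℂ E)
    (hT : ∀ ψ, T ψ = WeakDual.toStrongDual ψ)
    {L : Set (WeakDual ℂ E)} (hL : IsCompact L) (hLc : Convex ℝ L)
    (hne : L.Nonempty) {R : ℝ} (hR : ∀ ψ ∈ L, ‖T ψ‖ ≤ R)
    (hsep : TopologicalSpace.IsSeparable (T '' L)) {δ : ℝ} (hδ : 0 < δ) :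
    ∃ C, IsCompact C ∧ Convex ℝ C ∧ ¬ L ⊆ C ∧ ∀ x ∈ L, x ∉ C → ∀ y ∈ L, y ∉ C →
      ‖T x - T y‖ ≤ δ := by
  have hloc : LocallyConvexSpace ℝ (WeakDual ℂ E) :=
    WeakBilin.locallyConvexSpace (B := topDualPairing ℂ E)
  refine exists_dent T (fun d r => ?_) hL hLc hne hR hsep hδ
  have h := WeakDual.isClosed_closedBall (𝕜 := ℂ) (E := E) d r
  rwa [show (T : WeakDual ℂ E → StrongDual ℂ E) = WeakDual.toStrongDual from funext hT]

/-- A closed subspace is cut out by functionals. -/
theorem exists_functional {X : Type*} [NormedAddCommGroup X] [NormedSpace ℂ X] (S : Submodule ℂ X)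
    (hS : IsClosed (S : Set X)) {x : X} (hx : x ∉ S) :
    ∃ G : StrongDual ℂ X, (∀ χ ∈ S, G χ = 0) ∧ G x ≠ 0 := by
  obtain ⟨G, c, hG, hc⟩ := RCLike.geometric_hahn_banach_closed_point (𝕜 := ℂ)
    (S.restrictScalars ℝ).convex hS hx
  have h0 : 0 < c := by simpa using hG 0 S.zero_mem
  refine ⟨G, fun χ hχ => ?_, fun h => ?_⟩
  · by_contra hne
    have h1 := hG ((((c + 1 : ℝ) : ℂ) / G χ) • χ) (S.smul_mem _ hχ)
    rw [map_smul, smul_eq_mul, div_mul_cancel₀ _ hne, RCLike.re_to_complex, Complex.ofReal_re] at h1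
    linarith
  · rw [h, RCLike.re_to_complex, Complex.zero_re] at hc
    linarith

end

end Vale.Agent.P082.Every.C2
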