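import Vale.Agent.P082.Every.C2.Hull
import Vale.Agent.P082.Every.C2.Dent

/-!
# P082 C2: an invariant normal functional with the mass of a given vector
-/

namespace Vale.Agent.P082.Every.C2

open scoped InnerProductSpace ComplexOrder Topology
open Filter

universe u

variable {H : Type u} [NormedAddCommGroup H] [InnerProductSpace ℂ H] [CompleteSpace H]
variable {M : VonNeumannAlgebra H}

/-- The average of finitely many translates. -/
noncomputable def avgAct {k : ℕ} (v : Fin (k + 1) → unitary (Alg M)) (ψ : WD M) : WD M :=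
  ∑ i, ((k + 1 : ℝ))⁻¹ • act (v i) ψ

theorem avgAct_apply {k : ℕ} (v : Fin (k + 1) → unitary (Alg M)) (ψ : WD M) (x : Alg M) :
    avgAct v ψ x = ∑ i, ((k + 1 : ℝ))⁻¹ • ψ (conjU (v i) x) :=
  map_sum (evalR x) _ _

/-- Averages have fixed points in the hull. -/
theorem exists_avg_fixed {η : H} {k : ℕ} (v : Fin (k + 1) → unitary (Alg M)) :
    ∃ ψ ∈ hull M η, avgAct v ψ = ψ := by
  have hc0 : ∀ n : ℕ, (0 : ℝ) ≤ ((n + 1 : ℝ))⁻¹ := fun n => by positivity
  have hc1 : ∀ n : ℕ, ∑ _i ∈ Finset.range (n + 1), ((n + 1 : ℝ))⁻¹ = 1 := fun n => by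
    rw [Finset.sum_const, Finset.card_range, nsmul_eq_mul]
    push_cast
    exact mul_inv_cancel₀ (by positivity)
  have hT : ∀ ψ ∈ hull M η, avgAct v ψ ∈ hull M η := fun ψ hψ => by
    refine (convex_hull' η).sum_mem (fun _ _ => hc0 k) ?_ fun i _ => act_mem hψ _
    rw [Finset.sum_const, Finset.card_univ, Fintype.card_fin, nsmul_eq_mul]
    push_cast
    exact mul_inv_cancel₀ (by positivity)
  set g : ℕ → WD M := fun j => (avgAct v)^[j] (om M η) with hg
  have hgs : ∀ j, g (j + 1) = avgAct v (g j) := fun j => Function.iterate_succ_apply' _ j _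
  have hgm : ∀ j, g j ∈ hull M η := fun j => by
    induction j with
    | zero => exact om_mem η
    | succ j ih => rw [hgs]; exact hT _ ih
  set f : ℕ → WD M := fun n => ∑ j ∈ Finset.range (n + 1), ((n + 1 : ℝ))⁻¹ • g j with hf
  have hfm : ∀ n, f n ∈ hull M η := fun n =>
    (convex_hull' η).sum_mem (fun _ _ => hc0 n) (hc1 n) fun j _ => hgm j
  obtain ⟨ψ, hψ, hlim⟩ := (isCompact_hull η).ultrafilter_le_nhds ((hyperfilter ℕ).map f)
    (le_principal_iff.2 (Filter.mem_map.2 (univ_mem' hfm)))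
  refine ⟨ψ, hψ, DFunLike.ext _ _ fun x => ?_⟩
  have hev : ∀ y, Tendsto (fun n => f n y) (hyperfilter ℕ : Filter ℕ) (𝓝 (ψ y)) := fun y =>
    ((WeakDual.eval_continuous y).tendsto ψ).comp hlim
  have hfa : ∀ n y, f n y = ∑ j ∈ Finset.range (n + 1), ((n + 1 : ℝ))⁻¹ • g j y := fun n y =>
    map_sum (evalR y) _ _
  have htel : ∀ n, ∑ i, ((k + 1 : ℝ))⁻¹ • f n (conjU (v i) x) - f n x =
      ((n + 1 : ℝ))⁻¹ • (g (n + 1) x - g 0 x) := fun n => by
    have h1 : ∑ i, ((k + 1 : ℝ))⁻¹ • f n (conjU (v i) x) =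
        ∑ j ∈ Finset.range (n + 1), ((n + 1 : ℝ))⁻¹ • g (j + 1) x := by
      simp only [hfa, hgs, avgAct_apply, Finset.smul_sum]
      rw [Finset.sum_comm]
      exact Finset.sum_congr rfl fun j _ => Finset.sum_congr rfl fun i _ => smul_comm _ _ _
    rw [h1, hfa, ← Finset.sum_sub_distrib]
    simp only [← smul_sub]
    rw [← Finset.smul_sum, Finset.sum_range_sub (fun j => g j x)]
  have hzero : Tendsto (fun n => ∑ i, ((k + 1 : ℝ))⁻¹ • f n (conjU (v i) x) - f n x)
      (hyperfilter ℕ : Filter ℕ) (𝓝 0) := by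
    refine Tendsto.mono_left ?_ Nat.hyperfilter_le_atTop
    have hb : ∀ j, ‖g j x‖ ≤ ‖η‖ ^ 2 * ‖x‖ := fun j =>
      ((WeakDual.toStrongDual (g j)).le_opNorm x).trans
        (mul_le_mul_of_nonneg_right (hgm j).norm_le (norm_nonneg _))
    have h0 : Tendsto (fun n : ℕ => 2 * (‖η‖ ^ 2 * ‖x‖) * (1 / ((n : ℝ) + 1))) atTop (𝓝 0) := by
      simpa using (tendsto_one_div_add_atTop_nhds_zero_nat (𝕜 := ℝ)).const_mul (2 * (‖η‖ ^ 2 * ‖x‖))
    refine squeeze_zero_norm (fun n => ?_) h0
    rw [htel, norm_smul, Real.norm_of_nonneg (hc0 n), mul_comm, one_div]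
    exact mul_le_mul_of_nonneg_right
      ((norm_sub_le _ _).trans (by linarith [hb (n + 1), hb 0])) (hc0 n)
  have hl : Tendsto (fun n => ∑ i, ((k + 1 : ℝ))⁻¹ • f n (conjU (v i) x) - f n x)
      (hyperfilter ℕ : Filter ℕ) (𝓝 (avgAct v ψ x - ψ x)) := by
    rw [avgAct_apply]
    exact (tendsto_finsetSum _ fun i _ => (hev _).const_smul _).sub (hev x)
  exact sub_eq_zero.1 (tendsto_nhds_unique hl hzero)

/-- The real linear inclusion of the weak* dual in the norm dual. -/
noncomputable def strongR (M : VonNeumannAlgebra H) : WD M →ₗ[ℝ] StrongDual ℂ (Alg M) where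
  toFun := WeakDual.toStrongDual
  map_add' _ _ := rfl
  map_smul' _ _ := rfl

theorem closure_subset_hull {η : H} {O : Set (WD M)} (hOh : O ⊆ hull M η) :
    closure (convexHull ℝ O) ⊆ hull M η :=
  closure_minimal (convexHull_min hOh (convex_hull' η)) (isClosed_hull η)

theorem closure_subset_evalZero {O : Set (WD M)} {T : Alg M} (h : ∀ χ ∈ O, χ T = 0) :
    closure (convexHull ℝ O) ⊆ {χ : WD M | χ T = 0} :=
  closure_minimal (convexHull_min h (convex_evalZero T))
    (isClosed_eq (WeakDual.eval_continuous T) continuous_const)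

/-- Orbits in the hull are norm separable. -/
theorem isSeparable_orbit (hvec : StmtVecApprox.{u}) (hfin : IsFiniteVN M) {η : H}
    {O : Set (WD M)} (hO : O.Countable) (hOh : O ⊆ hull M η) :
    TopologicalSpace.IsSeparable (strongR M '' closure (convexHull ℝ O)) := by
  set S := (Submodule.span ℂ (strongR M '' O)).topologicalClosure with hS
  refine TopologicalSpace.IsSeparable.mono
    ((hO.image (strongR M)).isSeparable.span (R := ℂ)).closure ?_
  rintro _ ⟨ψ, hψ, rfl⟩
  show strongR M ψ ∈ S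
  by_contra hmem
  obtain ⟨F, hF0, hc⟩ := exists_functional S (Submodule.isClosed_topologicalClosure _) hmem
  obtain ⟨T, hT⟩ := exists_eval M F
  have hN : ∀ χ ∈ hull M η, F (strongR M χ) = χ T := fun χ hχ =>
    hT _ (mem_vecSpan hvec (isNormalPos_of_mem hfin hχ))
  have hO0 : ∀ χ ∈ O, χ T = 0 := fun χ hχ => by
    rw [← hN χ (hOh hχ)]
    exact hF0 _ (Submodule.le_topologicalClosure _ (Submodule.subset_span ⟨χ, hχ, rfl⟩))
  have hcl := closure_subset_evalZero hO0
  have hψh := closure_subset_hull hOh hψ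
  exact hc (by rw [hN ψ hψh]; exact hcl hψ)

/-- A fixed point of an average is fixed by each of the translations. -/
theorem fixed_of_avg_fixed (hvec : StmtVecApprox.{u}) (hfin : IsFiniteVN M) {η : H} {k : ℕ}
    (v : Fin (k + 1) → unitary (Alg M)) {ψ : WD M} (hψ : ψ ∈ hull M η) (hfix : avgAct v ψ = ψ)
    (i₀ : Fin (k + 1)) : act (v i₀) ψ = ψ := by
  classical
  by_contra hne
  set J := Finset.univ.filter (fun i => act (v i) ψ ≠ ψ) with hJ
  have hJne : J.Nonempty := ⟨i₀, by simp [hJ, hne]⟩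
  set δ := J.inf' hJne (fun i => ‖strongR M (act (v i) ψ) - strongR M ψ‖) with hδ
  have hδ0 : 0 < δ := by
    refine (Finset.lt_inf'_iff _).2 fun i hi => norm_pos_iff.2 (sub_ne_zero.2 fun h => ?_)
    exact (Finset.mem_filter.1 hi).2 (WeakDual.toStrongDual.injective h)
  -- the moving translations already average to the point
  have hmove : ∀ x, ∑ i ∈ J, ψ (conjU (v i) x) = (J.card : ℝ) • ψ x := fun x => by
    have h1 : ψ x = ∑ i, ((k + 1 : ℝ))⁻¹ • ψ (conjU (v i) x) := by
      rw [← avgAct_apply, hfix]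
    have h2 : ∑ i, ψ (conjU (v i) x) = ((k + 1 : ℝ)) • ψ x := by
      conv_rhs => rw [h1, ← Finset.smul_sum, smul_smul, mul_inv_cancel₀ (by positivity), one_smul]
    have h3 : ∑ i ∈ Finset.univ.filter (fun i => ¬ act (v i) ψ ≠ ψ), ψ (conjU (v i) x) =
        ((Finset.univ.filter (fun i => ¬ act (v i) ψ ≠ ψ)).card : ℝ) • ψ x := by
      rw [Nat.cast_smul_eq_nsmul, ← Finset.sum_const]
      refine Finset.sum_congr rfl fun i hi => ?_
      exact congrArg (fun φ : WD M => φ x) (not_not.1 (Finset.mem_filter.1 hi).2)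
    have h4 := Finset.sum_filter_add_sum_filter_not Finset.univ (fun i => act (v i) ψ ≠ ψ)
      (fun i => ψ (conjU (v i) x))
    have h5 : (J.card : ℝ) + ((Finset.univ.filter (fun i => ¬ act (v i) ψ ≠ ψ)).card : ℝ) =
        (k + 1 : ℝ) := by
      rw [← Nat.cast_add, Finset.card_filter_add_card_filter_not, Finset.card_univ, Fintype.card_fin]
      push_cast
      ring
    rw [h2, h3, ← h5, add_smul] at h4
    exact add_right_cancel h4
  -- the orbit of the generated monoid
  set O := Set.range fun l : List (Fin (k + 1)) => act ((l.map v).prod) ψ with hO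
  have hOh : O ⊆ hull M η := by
    rintro _ ⟨l, rfl⟩
    exact act_mem hψ _
  set L := closure (convexHull ℝ O) with hL
  have hLh : L ⊆ hull M η := closure_subset_hull hOh
  have hOL : O ⊆ L := (subset_convexHull ℝ O).trans subset_closure
  obtain ⟨C, hCc, hCv, hLC, hsmall⟩ := exists_dent_weakDual (strongR M) (fun _ => rfl)
    ((isCompact_hull η).of_isClosed_subset isClosed_closure hLh) (convex_closure_weakDual (convex_convexHull ℝ O))
    ⟨_, hOL ⟨[], rfl⟩⟩ (fun φ hφ => (hLh hφ).norm_le)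
    (isSeparable_orbit hvec hfin (Set.countable_range _) hOh) (half_pos hδ0)
  obtain ⟨_, ⟨l, rfl⟩, hlC⟩ := Set.not_subset.1 fun h : O ⊆ C =>
    hLC (closure_minimal (convexHull_min h hCv) hCc.isClosed)
  set w := (l.map v).prod with hw
  have hin : ∀ i ∈ J, act (w * v i) ψ ∈ C := fun i hi => by
    by_contra hout
    have hmem : act (w * v i) ψ ∈ L := hOL ⟨l ++ [i], by simp [hw]⟩
    have h1 := hsmall _ hmem hout _ (hOL ⟨l, rfl⟩) hlC
    rw [← act_act] at h1
    have h2 := (norm_le_sub_act w (act (v i) ψ) ψ).trans h1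
    have h3 : δ ≤ ‖strongR M (act (v i) ψ) - strongR M ψ‖ := Finset.inf'_le _ hi
    have h4 : ‖strongR M (act (v i) ψ) - strongR M ψ‖ ≤ δ / 2 := h2
    linarith
  refine hlC ?_
  have hJc : (J.card : ℝ) ≠ 0 := Nat.cast_ne_zero.2 (Finset.card_ne_zero.2 hJne)
  have hsum : act w ψ = ∑ i ∈ J, ((J.card : ℝ))⁻¹ • act (w * v i) ψ := DFunLike.ext _ _ fun x => by
    refine Eq.trans ?_ (map_sum (evalR x) _ _).symm
    show ψ (conjU w x) = ∑ i ∈ J, ((J.card : ℝ))⁻¹ • act (w * v i) ψ x
    rw [← Finset.smul_sum]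
    have h6 : ∀ i, act (w * v i) ψ x = ψ (conjU (v i) (conjU w x)) := fun i => by
      rw [← act_act]; rfl
    rw [Finset.sum_congr rfl fun i _ => h6 i, hmove, smul_smul, inv_mul_cancel₀ hJc, one_smul]
  show act w ψ ∈ C
  rw [hsum]
  refine hCv.sum_mem (fun _ _ => by positivity) ?_ hin
  rw [Finset.sum_const, nsmul_eq_mul, mul_inv_cancel₀ hJc]

theorem stmtFixed_of (hvec : StmtVecApprox.{u}) : StmtFixed.{u} := by
  intro H _ _ _ M hfin η
  classical
  obtain ⟨ψ, hψ, hψfix⟩ := (isCompact_hull (M := M) η).inter_iInter_nonempty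
    (fun u : unitary (Alg M) => {χ | act u χ = χ})
    (fun u => isClosed_eq (continuous_act u) continuous_id) fun F => by
      obtain ⟨χ, hχ, hfix⟩ := exists_avg_fixed (η := η)
        (Fin.cons 1 fun i => (F.equivFin.symm i).1 : Fin (F.card + 1) → unitary (Alg M))
      refine ⟨χ, hχ, Set.mem_iInter₂.2 fun u hu => ?_⟩
      have := fixed_of_avg_fixed hvec hfin _ hχ hfix (F.equivFin ⟨u, hu⟩).succ
      simpa using this
  refine ⟨WeakDual.toStrongDual ψ, isNormalPos_of_mem hfin hψ, fun x y => ?_, hψ.central⟩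
  obtain ⟨u, c, hx, -⟩ := CStarAlgebra.exists_sum_four_unitary x
  have hu : ∀ (w : unitary (Alg M)) (z : Alg M), ψ ((w : Alg M) * z) = ψ (z * (w : Alg M)) := by
    intro w z
    have h := congrArg (fun χ : WD M => χ ((w : Alg M) * z)) (Set.mem_iInter.1 hψfix w)
    simp only [act_apply] at h
    rw [← mul_assoc (star (w : Alg M)), Unitary.star_mul_self_of_mem w.2, one_mul] at h
    exact h.symm
  show ψ (x * y) = ψ (y * x)
  rw [hx, Finset.sum_mul, Finset.mul_sum, map_sum, map_sum]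
  refine Finset.sum_congr rfl fun i _ => ?_
  rw [smul_mul_assoc, mul_smul_comm, map_smul, map_smul, hu]

end Vale.Agent.P082.Every.C2
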