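import Vale.Agent.P082.Every.C2.Defs

/-!
# P082 C2: functionals on the span of the vector functionals are points of the algebra
-/

namespace Vale.Agent.P082.Every.C2

open scoped InnerProductSpace

universe u

variable {H : Type u} [NormedAddCommGroup H] [InnerProductSpace ℂ H] [CompleteSpace H]

/-- The norm closed span of the vector functionals. -/
noncomputable def vecSpan (M : VonNeumannAlgebra H) : Submodule ℂ (Alg M →L[ℂ] ℂ) :=
  (Submodule.span ℂ (Set.range fun p : H × H => vecF M p.1 p.2)).topologicalClosure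

theorem mem_vecSpan (hvec : StmtVecApprox.{u}) {M : VonNeumannAlgebra H} {ψ : Alg M →L[ℂ] ℂ}
    (hψ : IsNormalPos ψ) : ψ ∈ vecSpan M := by
  refine Metric.mem_closure_iff.2 fun ε hε => ?_
  obtain ⟨n, η, ξ, h⟩ := hvec H M ψ hψ (ε / 2) (half_pos hε)
  exact ⟨∑ i, vecF M (η i) (ξ i),
    Submodule.sum_mem _ fun i _ => Submodule.subset_span ⟨(η i, ξ i), rfl⟩,
    by rw [dist_eq_norm]; linarith⟩

theorem norm_vecF_le (M : VonNeumannAlgebra H) (η ξ : H) : ‖vecF M η ξ‖ ≤ ‖η‖ * ‖ξ‖ :=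
  LinearMap.mkContinuous_norm_le _ (mul_nonneg (norm_nonneg _) (norm_nonneg _)) _

/-- A bounded functional on the span is evaluation at an element of the algebra. -/
theorem exists_eval (M : VonNeumannAlgebra H) (F : StrongDual ℂ (Alg M →L[ℂ] ℂ)) :
    ∃ T : Alg M, ∀ ψ ∈ vecSpan M, F ψ = ψ T := by
  have hadd : ∀ η η' ξ, vecF M (η + η') ξ = vecF M η ξ + vecF M η' ξ := fun η η' ξ =>
    ContinuousLinearMap.ext fun x => inner_add_left _ _ _
  have hsmul : ∀ (c : ℂ) η ξ, vecF M (c • η) ξ = starRingEnd ℂ c • vecF M η ξ := fun c η ξ =>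
    ContinuousLinearMap.ext fun x => inner_smul_left _ _ _
  have hadd' : ∀ η ξ ξ', vecF M η (ξ + ξ') = vecF M η ξ + vecF M η ξ' := fun η ξ ξ' =>
    ContinuousLinearMap.ext fun x => by simp [ev, inner_add_right]
  have hsmul' : ∀ (c : ℂ) η ξ, vecF M η (c • ξ) = c • vecF M η ξ := fun c η ξ =>
    ContinuousLinearMap.ext fun x => by simp [ev, inner_smul_right]
  let B : H →ₗ⋆[ℂ] H →ₗ[ℂ] ℂ := LinearMap.mk₂'ₛₗ (starRingEnd ℂ) (RingHom.id ℂ)
    (fun v w => starRingEnd ℂ (F (vecF M w v)))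
    (fun v v' w => by simp [hadd', map_add])
    (fun c v w => by simp [hsmul', map_smul])
    (fun v w w' => by simp [hadd, map_add])
    (fun c v w => by simp [hsmul, map_smul])
  have hb : ∀ v w, ‖B v w‖ ≤ ‖F‖ * ‖v‖ * ‖w‖ := fun v w => by
    show ‖starRingEnd ℂ (F (vecF M w v))‖ ≤ _
    rw [RCLike.norm_conj]
    refine (F.le_opNorm _).trans ?_
    refine (mul_le_mul_of_nonneg_left (norm_vecF_le M w v) (norm_nonneg F)).trans (le_of_eq ?_)
    ring
  set a := InnerProductSpace.continuousLinearMapOfBilin (B.mkContinuous₂ ‖F‖ hb) with ha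
  have hap : ∀ v w, ⟪w, a v⟫_ℂ = F (vecF M w v) := fun v w => by
    rw [← inner_conj_symm]
    show starRingEnd ℂ ⟪a v, w⟫_ℂ = _
    rw [InnerProductSpace.continuousLinearMapOfBilin_apply]
    exact Complex.conj_conj _
  have hmem : a ∈ M.toStarSubalgebra := by
    change a ∈ M
    rw [← VonNeumannAlgebra.commutant_commutant M, VonNeumannAlgebra.mem_commutant_iff]
    intro g hg
    rw [VonNeumannAlgebra.mem_commutant_iff] at hg
    refine ContinuousLinearMap.ext fun v => ext_inner_left ℂ fun w => ?_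
    change ⟪w, g (a v)⟫_ℂ = ⟪w, a (g v)⟫_ℂ
    rw [← ContinuousLinearMap.adjoint_inner_left, hap, hap]
    refine congrArg F (ContinuousLinearMap.ext fun x => ?_)
    show ⟪ContinuousLinearMap.adjoint g w, ev v x⟫_ℂ = ⟪w, ev (g v) x⟫_ℂ
    rw [ContinuousLinearMap.adjoint_inner_left]
    exact congrArg (fun T : H →L[ℂ] H => ⟪w, T v⟫_ℂ) (hg _ x.2).symm
  refine ⟨⟨a, hmem⟩, fun ψ hψ => ?_⟩
  refine (Submodule.span ℂ (Set.range fun p : H × H => vecF M p.1 p.2)).topologicalClosure_minimal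
    (t := LinearMap.eqLocus F.toLinearMap
      (ContinuousLinearMap.apply ℂ ℂ (⟨a, hmem⟩ : Alg M)).toLinearMap) ?_ ?_ hψ
  · rw [Submodule.span_le]
    rintro _ ⟨⟨w, v⟩, rfl⟩
    exact (hap v w).symm
  · exact isClosed_eq F.continuous (ContinuousLinearMap.apply ℂ ℂ (⟨a, hmem⟩ : Alg M)).continuous

end Vale.Agent.P082.Every.C2
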