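import Vale.Agent.P082.Every.Iface
import Vale.Agent.P082.Scope.Sums

/-!
# P082 C2: a finite algebra has no infinite family of equivalent orthogonal projections
-/

namespace Vale.Agent.P082.Every.C2

open scoped InnerProductSpace
open Vale.Agent.P078.General Vale.Agent.P132.Homog Vale.Agent.P082.Scope

universe u

variable {H : Type u} [NormedAddCommGroup H] [InnerProductSpace ℂ H] [CompleteSpace H]

/-- Infinitely many copies of `x` below orthogonal projections force `x = 0`. -/
theorem eq_zero_of_copies {M : VonNeumannAlgebra H} (hfin : IsFiniteVN M) {x : H →L[ℂ] H}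
    (hxp : IsStarProjection x) (v P : ℕ → H →L[ℂ] H) (hv : ∀ j, v j ∈ M)
    (hvv : ∀ j, v j * star (v j) = x) (hP : ∀ j, IsStarProjection (P j))
    (hPo : ∀ i j, i ≠ j → P i * P j = 0) (hvP : ∀ j, v j * P j = v j) : x = 0 := by
  set e : ℕ → H →L[ℂ] H := fun j => star (v j) * v j with he
  have hx : ∀ j, x * v j = v j := fun j => by
    refine ContinuousLinearMap.ext fun u => ?_
    rw [mul_apply_eq_comp]
    have h1 : (x * v j - v j) * star (x * v j - v j) = 0 := by
      rw [star_sub, star_mul, hxp.isSelfAdjoint.star_eq]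
      simp only [sub_mul, mul_sub, ← mul_assoc]
      rw [mul_assoc x (v j), hvv, hxp.isIdempotentElem.eq, hxp.isIdempotentElem.eq]
      abel
    have h2 := (CStarRing.mul_star_self_eq_zero_iff _).1 h1
    have := congrArg (fun T : H →L[ℂ] H => T u) h2
    simpa [sub_eq_zero] using this
  have hpi : ∀ j, v j * e j = v j := fun j => by rw [he, ← mul_assoc, hvv, hx]
  have hep : ∀ j, IsStarProjection (e j) := fun j =>
    ⟨by rw [IsIdempotentElem, he, mul_assoc, show v j * (star (v j) * v j) = v j from hpi j],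
      IsSelfAdjoint.star_mul_self _⟩
  have horth : ∀ i j, i ≠ j → v i * star (v j) = 0 := fun i j hij => by
    rw [← hvP i, ← hvP j, star_mul, (hP j).isSelfAdjoint.star_eq, mul_assoc, ← mul_assoc (P i),
      hPo i j hij, zero_mul, mul_zero]
  have heo : ∀ i j, i ≠ j → e i * e j = 0 := fun i j hij => by
    rw [he, mul_assoc, ← mul_assoc (v i), horth i j hij, zero_mul, mul_zero]
  have hvn : ∀ j, ‖v j‖ ≤ 1 := fun j => ContinuousLinearMap.opNorm_le_bound _ zero_le_one fun u => by
    rw [one_mul, norm_pi_apply (v := v j) (hpi j)]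
    exact norm_proj_le (hep j) u
  set T : ℕ → H →L[ℂ] H := fun j => star (v (j + 1)) * v j with hT
  have hTr : ∀ j, T j * e j = T j := fun j => by rw [hT, mul_assoc, hpi]
  have hTl : ∀ j, e (j + 1) * T j = T j := fun j => by
    rw [hT, he, ← mul_assoc, mul_assoc (star (v (j + 1))), hvv, mul_assoc, hx]
  have hTT : ∀ i j, star (T i) * T j = if i = j then e i else 0 := fun i j => by
    rw [hT, star_mul, star_star, mul_assoc, ← mul_assoc (v (i + 1))]
    split_ifs with hij
    · subst hij; rw [hvv, hx]
    · rw [horth _ _ (by omega), zero_mul, mul_zero]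
  have hTn : ∀ j u, ‖T j u‖ ≤ ‖e j u‖ := fun j u => by
    conv_lhs => rw [← hTr j, mul_apply_eq_comp, hT, mul_apply_eq_comp]
    refine ((star (v (j + 1))).le_opNorm _).trans ?_
    rw [norm_star]
    refine (mul_le_of_le_one_left (norm_nonneg _) (hvn _)).trans ?_
    exact ((v j).le_opNorm _).trans (mul_le_of_le_one_left (norm_nonneg _) (hvn j))
  have hdiag : IsDiag e e :=
    { proj := hep
      orth := heo
      left := fun i => (hep i).isIdempotentElem.eq
      right := fun i => (hep i).isIdempotentElem.eq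
      norm_le := fun i => ContinuousLinearMap.opNorm_le_bound _ zero_le_one fun u => by
        rw [one_mul]; exact norm_proj_le (hep i) u }
  have hinner : ∀ i j, i ≠ j → ∀ u u', ⟪T i u, T j u'⟫_ℂ = 0 := fun i j hij u u' => by
    rw [← ContinuousLinearMap.adjoint_inner_right, ← ContinuousLinearMap.star_eq_adjoint,
      ← mul_apply_eq_comp, hTT, if_neg hij, zero_apply, inner_zero_right]
  have hsum : ∀ u, Summable fun j => T j u := fun u => by
    have hs : Summable fun i => ‖e i u‖ ^ 2 :=
      summable_of_sum_le (fun i => sq_nonneg _) fun t => hdiag.sum_sq_le t u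
    rw [summable_iff_vanishing_norm]
    intro ε hε
    obtain ⟨t, ht⟩ := summable_iff_vanishing_norm.1 hs (ε ^ 2) (by positivity)
    refine ⟨t, fun t' ht' => lt_of_pow_lt_pow_left₀ 2 hε.le ?_⟩
    have h1 := ht t' ht'
    rw [Real.norm_eq_abs, abs_of_nonneg (Finset.sum_nonneg fun i _ => sq_nonneg _)] at h1
    rw [norm_sq_sum_of_orth t' (fun j => T j u) fun i _ j _ hij => hinner i j hij u u]
    exact lt_of_le_of_lt
      (Finset.sum_le_sum fun i _ => pow_le_pow_left₀ (norm_nonneg _) (hTn i u) 2) h1
  set S : H →L[ℂ] H := LinearMap.mkContinuous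
    { toFun := fun u => ∑' j, T j u
      map_add' := fun u u' => by simp only [map_add, (hsum u).tsum_add (hsum u')]
      map_smul' := fun c u => by simp only [map_smul, RingHom.id_apply, (hsum u).tsum_const_smul] }
    1 fun u => by
      show ‖∑' j, T j u‖ ≤ 1 * ‖u‖
      rw [one_mul]
      refine le_of_tendsto (hsum u).hasSum.norm (Filter.Eventually.of_forall fun t => ?_)
      refine (pow_le_pow_iff_left₀ (norm_nonneg _) (norm_nonneg _) two_ne_zero).1 ?_
      rw [norm_sq_sum_of_orth t (fun j => T j u) fun i _ j _ hij => hinner i j hij u u]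
      exact (Finset.sum_le_sum fun i _ => pow_le_pow_left₀ (norm_nonneg _) (hTn i u) 2).trans
        (hdiag.sum_sq_le t u) with hS
  have hSap : ∀ u, S u = ∑' j, T j u := fun u => rfl
  set F := hdiag.sum with hF
  have hSS : star S * S = F := by
    refine ContinuousLinearMap.ext fun u => ext_inner_left ℂ fun u' => ?_
    rw [mul_apply_eq_comp, ContinuousLinearMap.star_eq_adjoint,
      ContinuousLinearMap.adjoint_inner_right, hdiag.inner_sum_right, hSap u,
      show (⟪S u', ∑' j, T j u⟫_ℂ) = ∑' j, ⟪S u', T j u⟫_ℂ from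
        (innerSL ℂ (S u')).map_tsum (hsum u)]
    refine tsum_congr fun j => ?_
    rw [← inner_conj_symm, hSap,
      show (⟪T j u, ∑' i, T i u'⟫_ℂ) = ∑' i, ⟪T j u, T i u'⟫_ℂ from
        (innerSL ℂ (T j u)).map_tsum (hsum u'),
      tsum_eq_single j fun i hi => hinner j i (Ne.symm hi) u u', inner_conj_symm,
      ← ContinuousLinearMap.adjoint_inner_right, ← ContinuousLinearMap.star_eq_adjoint,
      ← mul_apply_eq_comp, hTT, if_pos rfl]
  have hSM : S ∈ M := mem_of_commute_commutant M fun y hy => ContinuousLinearMap.ext fun u => by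
    rw [mul_apply_eq_comp, mul_apply_eq_comp, hSap, hSap, y.map_tsum (hsum u)]
    exact tsum_congr fun i => congrArg (fun S : H →L[ℂ] H => S u)
      (VonNeumannAlgebra.mem_commutant_iff.1 hy _ (mul_mem (star_mem (hv (i + 1))) (hv i))).symm
  have hFM : F ∈ M := hdiag.sum_mem fun i => mul_mem (star_mem (hv i)) (hv i)
  have hFT : ∀ j, F * T j = T j := fun j => by
    refine ContinuousLinearMap.ext fun u => ?_
    rw [mul_apply_eq_comp, hF, IsDiag.sum_apply, tsum_eq_single (j + 1) fun i hi => ?_]
    · rw [← mul_apply_eq_comp, hTl]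
    · rw [← mul_apply_eq_comp, ← hTl j, ← mul_assoc, heo i (j + 1) hi, zero_mul]
      rfl
  have hFS : F * S = S := ContinuousLinearMap.ext fun u => by
    rw [mul_apply_eq_comp, hSap, F.map_tsum (hsum u)]
    exact tsum_congr fun j => congrArg (fun S : H →L[ℂ] H => S u) (hFT j)
  have hFF : F * F = F := by
    rw [hF, IsDiag.sum_mul hdiag hdiag]
    refine ContinuousLinearMap.ext fun u => ?_
    rw [IsDiag.sum_apply, IsDiag.sum_apply]
    exact tsum_congr fun i => by rw [(hep i).isIdempotentElem.eq]
  have hFs : star F = F := by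
    rw [hF, IsDiag.star_sum]
    refine ContinuousLinearMap.ext fun u => ?_
    rw [IsDiag.sum_apply, IsDiag.sum_apply]
    exact tsum_congr fun i => by rw [(hep i).isSelfAdjoint.star_eq]
  set U : H →L[ℂ] H := S + (1 - F) with hU
  have hSF : star S * (1 - F) = 0 := by
    have h1 : star S * F = star S := by rw [← hFs, ← star_mul, hFS]
    rw [mul_sub, mul_one, h1, sub_self]
  have hUU : star U * U = 1 := by
    have h2 : (1 - F) * S = 0 := by rw [sub_mul, one_mul, hFS, sub_self]
    have h3 : (1 - F) * (1 - F) = 1 - F := by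
      rw [mul_sub, sub_mul, sub_mul, one_mul, one_mul, mul_one, hFF]; abel
    rw [hU, star_add, star_sub, star_one, hFs, add_mul, mul_add, mul_add, hSS, hSF, h2, h3]
    abel
  have hfin' := hfin ⟨U, add_mem hSM (sub_mem (one_mem M) hFM)⟩ (Subtype.ext hUU)
  have hU1 : U * star U = 1 := congrArg Subtype.val hfin'
  have he0U : e 0 * U = 0 := by
    refine ContinuousLinearMap.ext fun u => ?_
    rw [mul_apply_eq_comp, hU, add_apply, map_add, hSap, (e 0).map_tsum (hsum u)]
    have h1 : ∀ j, e 0 (T j u) = 0 := fun j => by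
      rw [← mul_apply_eq_comp, ← hTl j, ← mul_assoc, heo 0 (j + 1) (by omega), zero_mul]
      rfl
    have h2 : e 0 * F = e 0 := by
      refine ContinuousLinearMap.ext fun w => ?_
      rw [mul_apply_eq_comp, hF, IsDiag.sum_apply, (e 0).map_tsum (hdiag.summable w),
        tsum_eq_single 0 fun i hi => ?_]
      · exact congrArg (fun S : H →L[ℂ] H => S w) (hep 0).isIdempotentElem.eq
      · exact congrArg (fun S : H →L[ℂ] H => S w) (heo 0 i (Ne.symm hi))
    rw [tsum_congr h1, tsum_zero, zero_add, ← mul_apply_eq_comp, mul_sub, mul_one, h2, sub_self]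
  have he0 : e 0 = 0 := by rw [← mul_one (e 0), ← hU1, ← mul_assoc, he0U, zero_mul]
  rw [← hxp.isIdempotentElem.eq, ← hvv 0,
    show v 0 * star (v 0) * (v 0 * star (v 0)) = v 0 * e 0 * star (v 0) by
      simp only [he, mul_assoc], he0, mul_zero, zero_mul]

end Vale.Agent.P082.Every.C2
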