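import Vale.Agent.P082.Every.C2.Unitize

/-!
# P082 C2: one step of the infinitely-many-copies construction
-/

namespace Vale.Agent.P082.Every.C2

open scoped InnerProductSpace
open Vale.Agent.P078.General Vale.Agent.P132.Homog

universe u

variable {H : Type u} [NormedAddCommGroup H] [InnerProductSpace ℂ H] [CompleteSpace H]

/-- A large subprojection of `x` is equivalent to a projection below `P`, once `A A*` imitates `h`
at one vector and `x a h a x = x`. -/
theorem exists_step (M : VonNeumannAlgebra H) {h a x A P : H →L[ℂ] H} (ha : a ∈ M)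
    (has : star a = a) (hx : x ∈ M) (hxp : IsStarProjection x) (hxh : x * (a * h * a) * x = x)
    (hA : A ∈ M) (hAP : A * P = A) (η : H) {τ : ℝ}
    (hτ : ‖(A * star A) (a (x η)) - h (a (x η))‖ ≤ τ) :
    ∃ x' ∈ M, IsStarProjection x' ∧ x * x' = x' ∧ ‖x η - x' η‖ ≤ 2 * ‖a‖ * τ ∧
      ∃ V ∈ M, V * star V = x' ∧ V * P = V := by
  set B := x * a * A with hB
  have hBM : B ∈ M := mul_mem (mul_mem hx ha) hA
  set K := B * star B with hK
  have hKM : K ∈ M := mul_mem hBM (star_mem hBM)
  have hK0 : 0 ≤ K := mul_star_self_nonneg B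
  have hKs : IsSelfAdjoint K := IsSelfAdjoint.of_nonneg hK0
  have hxx : x * x = x := hxp.isIdempotentElem.eq
  have hKe : K = x * a * (A * star A) * (a * x) := by
    rw [hK, hB, star_mul, star_mul, has, hxp.isSelfAdjoint.star_eq]
    simp only [mul_assoc]
  have hxK : x * K = K := by simp only [hKe, ← mul_assoc, hxx]
  have hKx : K * x = K := by simp only [hKe, mul_assoc, hxx]
  set C := cut K (1 / 2) with hC
  have hCp : IsStarProjection C := isStarProjection_cut K _
  have hCx : Commute x C := commute_cut hKs (show Commute x K from hxK.trans hKx.symm) _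
  have hCM : C ∈ M := cut_mem M hKM hKs _
  set x' := 1 - C with hx'
  -- below `x`
  have hxx' : x * x' = x' := by
    refine ContinuousLinearMap.ext fun v => ?_
    set w := x' v - x (x' v) with hw
    have hCw : C w = 0 := by
      have e1 : C (x' v) = 0 := by
        rw [← mul_apply_eq_comp, hx', mul_sub, mul_one, hCp.isIdempotentElem.eq, sub_self]
        rfl
      rw [hw, map_sub, ← mul_apply_eq_comp C x, ← hCx.eq, mul_apply_eq_comp, e1, map_zero,
        sub_self]
    have hKw : K w = 0 := by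
      rw [hw, map_sub, ← mul_apply_eq_comp K x, hKx, sub_self]
    have h1 := le_re_inner_of_cut_eq_zero hKs hCw
    rw [hKw, inner_zero_left, Complex.zero_re] at h1
    have h2 : ‖w‖ = 0 := by nlinarith [norm_nonneg w]
    rw [mul_apply_eq_comp]
    exact (sub_eq_zero.1 (norm_eq_zero.1 h2)).symm
  refine ⟨x', sub_mem (one_mem M) hCM, hCp.one_sub, hxx', ?_, ?_⟩
  · set η₁ := x η with hη₁
    have hxη : x η₁ = η₁ := proj_apply hxp η
    have e : ‖K η₁ - η₁‖ ≤ ‖a‖ * τ := by
      have h1 : K η₁ - η₁ = (x * a) ((A * star A) (a η₁) - h (a η₁)) := by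
        have h2 := congrArg (fun T : H →L[ℂ] H => T η) hxh
        simp only [mul_apply_eq_comp] at h2
        rw [hKe]
        simp only [mul_apply_eq_comp, hxη, map_sub]
        rw [hη₁, h2]
      rw [h1, mul_apply_eq_comp]
      refine (norm_proj_le hxp _).trans ((a.le_opNorm _).trans ?_)
      exact mul_le_mul_of_nonneg_left hτ (norm_nonneg a)
    set w := C η₁ with hw
    have hdiff : x η - x' η = w := by
      have h2 : x' (x η) = x' η := by
        rw [← mul_apply_eq_comp, hx', sub_mul, one_mul, ← hCx.eq]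
        have h3 : x * (1 - C) = 1 - C := by rw [← hx']; exact hxx'
        rw [show x - x * C = x * (1 - C) by rw [mul_sub, mul_one], h3]
      rw [← h2, hw, hη₁, hx', sub_apply, one_apply_eq_self, sub_sub_cancel]
    rw [hdiff]
    have hle := re_inner_le_of_mem_cutSpace hKs (cut_mem_cutSpace K (1 / 2) η₁ : w ∈ _)
    have hKwη : ⟪K w, w⟫_ℂ = ⟪K η₁, w⟫_ℂ := by
      rw [hw, ← mul_apply_eq_comp K C, (commute_cut_self hKs _).eq, mul_apply_eq_comp,
        inner_proj hCp, proj_apply hCp]
    have h4 : ‖w‖ ^ 2 - ‖a‖ * τ * ‖w‖ ≤ (⟪K η₁, w⟫_ℂ).re := by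
      have h5 : (⟪η₁, w⟫_ℂ).re = ‖w‖ ^ 2 := by
        rw [hw, ← inner_self_eq_norm_sq (𝕜 := ℂ), inner_proj hCp η₁ (C η₁), proj_apply hCp]
        rfl
      have h6 : (⟪η₁ - K η₁, w⟫_ℂ).re ≤ ‖a‖ * τ * ‖w‖ :=
        ((Complex.re_le_norm _).trans (norm_inner_le_norm _ _)).trans
          (mul_le_mul_of_nonneg_right (by rw [norm_sub_rev]; exact e) (norm_nonneg _))
      rw [inner_sub_left, Complex.sub_re, h5] at h6
      linarith
    rw [hKwη] at hle
    rcases (norm_nonneg w).eq_or_lt with h0 | h0
    · rw [← h0]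
      have := (norm_nonneg _).trans hτ
      positivity
    · nlinarith
  · obtain ⟨b, hb, hbs, -, hbK⟩ := exists_unitize M hKM hK0 (δ := (1 : ℝ) / 2) (by norm_num)
    rw [← hC, ← hx'] at hbK
    refine ⟨x' * b * B, mul_mem (mul_mem (sub_mem (one_mem M) hCM) hb) hBM, ?_, ?_⟩
    · calc x' * b * B * star (x' * b * B) = x' * (b * K * b * x') := by
            rw [hK, star_mul (x' * b) B, star_mul x' b, hbs, hCp.one_sub.isSelfAdjoint.star_eq]
            simp only [mul_assoc, hx']
        _ = x' := by rw [hbK, hCp.one_sub.isIdempotentElem.eq]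
    · rw [hB]
      simp only [mul_assoc, hAP]

end Vale.Agent.P082.Every.C2
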