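import Vale.Agent.P082.Every.C2.Mazur
import Vale.Agent.P082.Every.C2.Step
import Vale.Agent.P082.Every.C2.Shift

/-!
# P082 C2: unitary orbits of a vector are uniformly small along decreasing projections
-/

namespace Vale.Agent.P082.Every.C2

open scoped InnerProductSpace Topology
open Filter
open Vale.Agent.P078.General Vale.Agent.P132.Homog

universe u

variable {H : Type u} [NormedAddCommGroup H] [InnerProductSpace ℂ H] [CompleteSpace H]
variable {M : VonNeumannAlgebra H}

theorem proj_coe {a : Alg M} (ha : IsStarProjection a) : IsStarProjection (a : H →L[ℂ] H) :=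
  ⟨congrArg Subtype.val ha.isIdempotentElem.eq, congrArg Subtype.val ha.isSelfAdjoint.star_eq⟩

theorem re_inner_proj_self {p : H →L[ℂ] H} (hp : IsStarProjection p) (v : H) :
    (⟪p v, v⟫_ℂ).re = ‖p v‖ ^ 2 := by
  rw [← inner_self_eq_norm_sq (𝕜 := ℂ), inner_proj hp v (p v), proj_apply hp, inner_proj hp]
  rfl

/-- A finite sum of orthogonal projections is a projection. -/
theorem isStarProjection_sum {ι : Type*} (s : Finset ι) {p : ι → H →L[ℂ] H}
    (hp : ∀ i, IsStarProjection (p i)) (ho : ∀ i j, i ≠ j → p i * p j = 0) :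
    IsStarProjection (∑ i ∈ s, p i) := by
  refine ⟨?_, ?_⟩
  · rw [IsIdempotentElem, Finset.sum_mul]
    refine Finset.sum_congr rfl fun i hi => ?_
    rw [Finset.mul_sum, Finset.sum_eq_single_of_mem i hi fun j _ hj => ho i j (Ne.symm hj)]
    exact (hp i).isIdempotentElem.eq
  · rw [IsSelfAdjoint, star_sum]
    exact Finset.sum_congr rfl fun i _ => (hp i).isSelfAdjoint.star_eq

/-- A weak limit of a decreasing sequence of projections. -/
theorem exists_inf {U : Ultrafilter ℕ} (hU : (U : Filter ℕ) ≤ atTop) {X : ℕ → Alg M}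
    (hX : ∀ j, IsStarProjection (X j)) (hmono : ∀ i j, i ≤ j → X i * X j = X j) :
    ∃ x : Alg M, IsStarProjection (x : H →L[ℂ] H) ∧ (∀ i, X i * x = x) ∧
      Avg.IsWLim U X x := by
  obtain ⟨x, hx, -⟩ := Avg.exists_wLim U X (C := 1) fun j =>
    ContinuousLinearMap.opNorm_le_bound _ zero_le_one fun v => by
      rw [one_mul]; exact norm_proj_le (proj_coe (hX j)) v
  have habs : ∀ i, X i * x = x := fun i => by
    refine (hx.mul_left (X i)).unique fun v w => ?_
    refine (hx v w).congr' (Filter.Eventually.filter_mono hU ?_)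
    filter_upwards [Filter.eventually_ge_atTop i] with j hj
    exact congrArg (fun T : Alg M => ⟪(T : H →L[ℂ] H) v, w⟫_ℂ) (hmono i j hj).symm
  refine ⟨x, ⟨congrArg Subtype.val (a₁ := x * x) (a₂ := x) ?_, ?_⟩, habs, hx⟩
  · refine (hx.mul_right x).unique ?_
    rw [show (fun i => X i * x) = fun _ => x from funext habs]
    exact Avg.IsWLim.const U x
  · refine ContinuousLinearMap.ext fun v => ext_inner_right ℂ fun w => ?_
    rw [ContinuousLinearMap.star_eq_adjoint, ContinuousLinearMap.adjoint_inner_left,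
      ← inner_conj_symm v ((x : H →L[ℂ] H) w)]
    refine tendsto_nhds_unique ?_ (hx v w)
    refine ((hx w v).star).congr fun j => ?_
    rw [RCLike.star_def, inner_conj_symm, inner_proj (proj_coe (hX j))]

theorem stmtOrbit.{v} : StmtOrbit.{v} := by
  intro H _ _ _ M hfin s hs η ε hε
  classical
  by_contra hcon
  push Not at hcon
  -- a decreasing sequence and the unitaries
  obtain ⟨a₀, ha₀⟩ := hs.nonempty
  have hbig : ∀ a : s, ∃ u : unitary (Alg M), ε < ‖ev (ev η (u : Alg M)) (a : Alg M)‖ := fun a => by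
    obtain ⟨u, hu, h⟩ := hcon a a.2
    exact ⟨⟨u, hu⟩, h⟩
  choose uf huf using hbig
  have hnext : ∀ a : s, ∃ c : s, (c : Alg M) * (a : Alg M) = c ∧
      ‖ev (ev η (uf a : Alg M)) (c : Alg M)‖ ≤ ε / 2 := fun a => by
    obtain ⟨b, hb, hbe⟩ := hs.tendsto (ev η (uf a : Alg M)) (ε / 2) (half_pos hε)
    obtain ⟨c, hc, hca, hcb⟩ := hs.directed a a.2 b hb
    refine ⟨⟨c, hc⟩, hca, ?_⟩
    show ‖(c : H →L[ℂ] H) (ev η (uf a : Alg M))‖ ≤ _
    rw [← show (c : H →L[ℂ] H) * b = c from congrArg Subtype.val hcb, mul_apply_eq_comp]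
    exact (norm_proj_le (proj_coe (hs.proj c hc)) _).trans hbe.le
  choose nx hnx1 hnx2 using hnext
  set A : ℕ → s := fun n => nx^[n] ⟨a₀, ha₀⟩ with hA
  have hAs : ∀ n, A (n + 1) = nx (A n) := fun n => Function.iterate_succ_apply' nx n _
  set a : ℕ → H →L[ℂ] H := fun n => ((A n : Alg M) : H →L[ℂ] H) with ha
  set u : ℕ → H →L[ℂ] H := fun n => ((uf (A n) : Alg M) : H →L[ℂ] H) with hu
  have hap : ∀ n, IsStarProjection (a n) := fun n => proj_coe (hs.proj _ (A n).2)
  have ha1 : ∀ n, a (n + 1) * a n = a (n + 1) := fun n => by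
    simp only [ha, hAs]
    exact congrArg Subtype.val (hnx1 (A n))
  have hale : ∀ i j, i ≤ j → a j * a i = a j := fun i j hij => by
    induction j, hij using Nat.le_induction with
    | base => exact (hap i).isIdempotentElem.eq
    | succ j _ ih => rw [← ha1 j, mul_assoc, ih]
  have hale' : ∀ i j, i ≤ j → a i * a j = a j := fun i j hij => by
    have := congrArg star (hale i j hij)
    rwa [star_mul, (hap i).isSelfAdjoint.star_eq, (hap j).isSelfAdjoint.star_eq] at this
  set p : ℕ → H →L[ℂ] H := fun n => a n - a (n + 1) with hp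
  have hpp : ∀ n, IsStarProjection (p n) := fun n => by
    refine ⟨?_, (hap n).isSelfAdjoint.sub (hap (n + 1)).isSelfAdjoint⟩
    simp only [hp, IsIdempotentElem, mul_sub, sub_mul, (hap n).isIdempotentElem.eq,
      (hap (n + 1)).isIdempotentElem.eq, ha1 n, hale' n (n + 1) n.le_succ]
    abel
  have hpo : ∀ i j, i ≠ j → p i * p j = 0 := fun i j hij => by
    rcases Nat.lt_or_gt_of_ne hij with h | h
    · simp only [hp, mul_sub, sub_mul, hale' i j h.le, hale' i (j + 1) (by omega),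
        hale' (i + 1) j h, hale' (i + 1) (j + 1) (by omega)]
      abel
    · simp only [hp, mul_sub, sub_mul, hale j i h.le, hale j (i + 1) (by omega),
        hale (j + 1) i h, hale (j + 1) (i + 1) (by omega)]
      abel
  have huM : ∀ n, u n ∈ M := fun n => (uf (A n) : Alg M).2
  have haM : ∀ n, a n ∈ M := fun n => (A n : Alg M).2
  have hpM : ∀ n, p n ∈ M := fun n => sub_mem (haM n) (haM (n + 1))
  have huu : ∀ n, u n * star (u n) = 1 := fun n =>
    congrArg Subtype.val (Unitary.mul_star_self_of_mem (uf (A n)).2)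
  have hlow : ∀ n, ε / 2 ≤ ‖p n (u n η)‖ := fun n => by
    have h1 : ε < ‖a n (u n η)‖ := huf (A n)
    have h2 : ‖a (n + 1) (u n η)‖ ≤ ε / 2 := by
      simp only [ha, hu, hAs]
      exact hnx2 (A n)
    have h3 := norm_sub_norm_le (a n (u n η)) (a (n + 1) (u n η))
    rw [hp, sub_apply]
    linarith
  -- the conjugated projections and their weak limit
  set q : ℕ → Alg M := fun n =>
    ⟨star (u n) * p n * u n, mul_mem (mul_mem (star_mem (huM n)) (hpM n)) (huM n)⟩ with hq
  have hqp : ∀ n, IsStarProjection (q n : H →L[ℂ] H) := fun n => by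
    refine ⟨?_, by rw [hq]; exact (hpp n).isSelfAdjoint.conjugate' (u n)⟩
    show (star (u n) * p n * u n) * (star (u n) * p n * u n) = star (u n) * p n * u n
    calc (star (u n) * p n * u n) * (star (u n) * p n * u n)
        = star (u n) * p n * (u n * star (u n)) * p n * u n := by simp only [mul_assoc]
      _ = star (u n) * (p n * p n) * u n := by rw [huu, mul_one]; simp only [mul_assoc]
      _ = _ := by rw [(hpp n).isIdempotentElem.eq]
  obtain ⟨h, hh, -⟩ := Avg.exists_wLim (hyperfilter ℕ) q (C := 1) fun n =>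
    ContinuousLinearMap.opNorm_le_bound _ zero_le_one fun v => by
      rw [one_mul]; exact norm_proj_le (hqp n) v
  have hU : (hyperfilter ℕ : Filter ℕ) ≤ atTop := Nat.hyperfilter_le_atTop
  have hre : ∀ v, Tendsto (fun n => ‖(q n : H →L[ℂ] H) v‖ ^ 2) (hyperfilter ℕ : Filter ℕ)
      (𝓝 (⟪(h : H →L[ℂ] H) v, v⟫_ℂ).re) := fun v => by
    refine ((Complex.continuous_re.tendsto _).comp (hh v v)).congr fun n => ?_
    exact re_inner_proj_self (hqp n) v
  have h0 : (0 : H →L[ℂ] H) ≤ h := by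
    rw [ContinuousLinearMap.nonneg_iff_isPositive]
    refine ContinuousLinearMap.isPositive_def'.2 ⟨?_, fun v => ?_⟩
    · refine ContinuousLinearMap.ext fun v => ext_inner_right ℂ fun w => ?_
      rw [ContinuousLinearMap.star_eq_adjoint, ContinuousLinearMap.adjoint_inner_left,
        ← inner_conj_symm v ((h : H →L[ℂ] H) w)]
      refine tendsto_nhds_unique ?_ (hh v w)
      refine ((hh w v).star).congr fun j => ?_
      rw [RCLike.star_def, inner_conj_symm, inner_proj (hqp j)]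
    · exact ge_of_tendsto (hre v) (Eventually.of_forall fun n => sq_nonneg _)
  have hη : ε ^ 2 / 4 ≤ (⟪(h : H →L[ℂ] H) η, η⟫_ℂ).re := by
    refine ge_of_tendsto (hre η) (Eventually.of_forall fun n => ?_)
    have h1 : ‖(q n : H →L[ℂ] H) η‖ = ‖p n (u n η)‖ := by
      show ‖star (u n) (p n (u n η))‖ = _
      exact ContinuousLinearMap.norm_map_of_mem_unitary
        (Unitary.star_mem (Avg.coe_mem_unitary (uf (A n)).2)) _
    rw [h1]
    nlinarith [hlow n]
  set δ : ℝ := ε ^ 2 / (8 * (‖η‖ ^ 2 + 1)) with hδ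
  have hδ0 : 0 < δ := by positivity
  obtain ⟨g, hgM, hgs, -, hgE⟩ := exists_unitize M h.2 h0 hδ0
  set E := 1 - cut (h : H →L[ℂ] H) δ with hE
  have hEp : IsStarProjection E := (isStarProjection_cut _ δ).one_sub
  have hEM : E ∈ M :=
    sub_mem (one_mem M) (cut_mem M h.2 (IsSelfAdjoint.of_nonneg h0) δ)
  set η₀ := E η with hη₀
  have hη₀0 : η₀ ≠ 0 := by
    intro h1
    have h2 : cut (h : H →L[ℂ] H) δ η = η := by
      rw [hη₀, hE, sub_apply, one_apply_eq_self, sub_eq_zero] at h1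
      exact h1.symm
    have h3 := re_inner_le_of_mem_cutSpace (IsSelfAdjoint.of_nonneg h0)
      (h2 ▸ cut_mem_cutSpace (h : H →L[ℂ] H) δ η)
    have h4 : δ * ‖η‖ ^ 2 < ε ^ 2 / 4 := by
      rw [hδ, div_mul_eq_mul_div, div_lt_div_iff₀ (by positivity) (by norm_num)]
      nlinarith [sq_nonneg ‖η‖, pow_pos hε 2]
    linarith
  set c₀ := ‖η₀‖ with hc₀
  have hc₀0 : 0 < c₀ := norm_pos_iff.2 hη₀0
  -- one step below a subprojection of `E`
  have hstep : ∀ (j : ℕ) (x : {x : Alg M // IsStarProjection (x : H →L[ℂ] H) ∧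
      (x : H →L[ℂ] H) * E = x}) (N : ℕ),
      ∃ (x' : {x : Alg M // IsStarProjection (x : H →L[ℂ] H) ∧ (x : H →L[ℂ] H) * E = x}) (N' : ℕ)
        (V P : H →L[ℂ] H), N ≤ N' ∧ x.1 * x'.1 = x'.1 ∧
        ‖(x.1 : H →L[ℂ] H) η₀ - (x'.1 : H →L[ℂ] H) η₀‖ ≤ c₀ * (1 / 4) ^ (j + 1) ∧
        V ∈ M ∧ V * star V = (x'.1 : H →L[ℂ] H) ∧ V * P = V ∧
        ∃ t : Finset ℕ, (∀ n ∈ t, N ≤ n ∧ n < N') ∧ P = ∑ n ∈ t, p n := by
    rintro j ⟨x, hxp, hxE⟩ N
    set τ : ℝ := c₀ * (1 / 4) ^ (j + 1) / (2 * (‖g‖ + 1)) with hτ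
    have hτ0 : 0 < τ := by positivity
    obtain ⟨t, c, ht, hc1, hct⟩ := exists_convex_approx hU hh N
      (fun _ : Fin 1 => g ((x : H →L[ℂ] H) η₀)) hτ0
    set B : H →L[ℂ] H := ∑ n ∈ t, ((√(c n) : ℝ) : ℂ) • (star (u n) * p n) with hB
    set P : H →L[ℂ] H := ∑ n ∈ t, p n with hP
    have hBM : B ∈ M := sum_mem fun n _ =>
      M.toStarSubalgebra.smul_mem (mul_mem (star_mem (huM n)) (hpM n)) _
    have hBP : B * P = B := by
      rw [hB, Finset.sum_mul]
      refine Finset.sum_congr rfl fun n hn => ?_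
      rw [hP, smul_mul_assoc, mul_assoc, Finset.mul_sum,
        Finset.sum_eq_single_of_mem n hn fun m _ hm => hpo n m (Ne.symm hm),
        (hpp n).isIdempotentElem.eq]
    have hBB : B * star B = ∑ n ∈ t, (c n : ℂ) • (q n : H →L[ℂ] H) := by
      rw [hB, star_sum, Finset.sum_mul]
      refine Finset.sum_congr rfl fun n hn => ?_
      rw [Finset.mul_sum, Finset.sum_eq_single_of_mem n hn fun m _ hm => ?_]
      · rw [star_smul, star_mul, star_star, (hpp n).isSelfAdjoint.star_eq, smul_mul_assoc,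
          mul_smul_comm, smul_smul, RCLike.star_def, Complex.conj_ofReal, ← Complex.ofReal_mul,
          Real.mul_self_sqrt (ht n hn).2]
        show _ = (c n : ℂ) • (star (u n) * p n * u n)
        rw [show star (u n) * p n * (p n * u n) = star (u n) * (p n * p n) * u n by
          simp only [mul_assoc], (hpp n).isIdempotentElem.eq]
      · rw [star_smul, star_mul, star_star, (hpp m).isSelfAdjoint.star_eq, smul_mul_assoc,
          mul_smul_comm, show star (u n) * p n * (p m * u m) = star (u n) * (p n * p m) * u m by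
            simp only [mul_assoc], hpo n m (Ne.symm hm), mul_zero, zero_mul, smul_zero, smul_zero]
    have hEx : E * (x : H →L[ℂ] H) = x := by
      have := congrArg star hxE
      rwa [star_mul, hxp.isSelfAdjoint.star_eq, hEp.isSelfAdjoint.star_eq] at this
    have hxh : (x : H →L[ℂ] H) * (g * h * g) * x = x := by
      calc (x : H →L[ℂ] H) * (g * h * g) * x
          = (x : H →L[ℂ] H) * (g * h * g * E) * x := by simp only [mul_assoc, hEx]
        _ = (x : H →L[ℂ] H) := by
            rw [hgE, mul_assoc, hEx, hxp.isIdempotentElem.eq]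
    obtain ⟨x', hx'M, hx'p, hxx', hloss, V, hV, hVV, hVP⟩ :=
      exists_step M hgM hgs x.2 hxp hxh hBM hBP η₀ (τ := τ) (by rw [hBB]; exact hct 0)
    have hx'E : x' * E = x' := by
      have h1 : x' * (x : H →L[ℂ] H) = x' := by
        have := congrArg star hxx'
        rwa [star_mul, hx'p.isSelfAdjoint.star_eq, hxp.isSelfAdjoint.star_eq] at this
      rw [← h1, mul_assoc, hxE]
    refine ⟨⟨⟨x', hx'M⟩, hx'p, hx'E⟩, max N ((t.sup id) + 1), V, P, le_max_left _ _,
      Subtype.ext hxx', ?_, hV, hVV, hVP, t, fun n hn => ⟨(ht n hn).1, ?_⟩, rfl⟩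
    · refine hloss.trans ?_
      have h1 : 2 * (‖g‖ + 1) * τ = c₀ * (1 / 4) ^ (j + 1) := by
        rw [hτ, mul_div_cancel₀ _ (by positivity)]
      show 2 * ‖g‖ * τ ≤ c₀ * (1 / 4) ^ (j + 1)
      nlinarith
    · exact lt_max_of_lt_right (Nat.lt_succ_of_le (Finset.le_sup (f := id) hn))
  choose xn Nn Vn Pn hN hmon hloss hVM hVV hVP tn htn hPn using hstep
  -- the iteration
  let G : ℕ → {x : Alg M // IsStarProjection (x : H →L[ℂ] H) ∧ (x : H →L[ℂ] H) * E = x} × ℕ :=
    fun j => Nat.rec (⟨⟨E, hEM⟩, hEp, hEp.isIdempotentElem.eq⟩, 0)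
      (fun j z => (xn j z.1 z.2, Nn j z.1 z.2)) j
  set X : ℕ → Alg M := fun j => (G j).1.1 with hX
  set Nf : ℕ → ℕ := fun j => (G j).2 with hNf
  set P : ℕ → H →L[ℂ] H := fun j => Pn j (G j).1 (G j).2 with hP
  set V : ℕ → H →L[ℂ] H := fun j => Vn j (G j).1 (G j).2 with hV
  have hNmono : Monotone Nf := monotone_nat_of_le_succ fun j => hN j (G j).1 (G j).2
  have hXp : ∀ j, IsStarProjection (X j : H →L[ℂ] H) := fun j => (G j).1.2.1
  have hXp' : ∀ j, IsStarProjection (X j) := fun j =>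
    ⟨Subtype.ext (hXp j).isIdempotentElem.eq, Subtype.ext (hXp j).isSelfAdjoint.star_eq⟩
  have hXmono : ∀ i j, i ≤ j → X i * X j = X j := fun i j hij => by
    induction j, hij using Nat.le_induction with
    | base => exact (hXp' i).isIdempotentElem.eq
    | succ j _ ih =>
      have h1 : X j * X (j + 1) = X (j + 1) := hmon j (G j).1 (G j).2
      rw [← h1, ← mul_assoc, ih]
  obtain ⟨x, hxp, habs, hxl⟩ := exists_inf hU hXp' hXmono
  -- the limit does not vanish
  have hXn : ∀ j, c₀ * (2 / 3 + (1 / 3) * (1 / 4) ^ j) ≤ ‖(X j : H →L[ℂ] H) η₀‖ := by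
    intro j
    induction j with
    | zero =>
      show c₀ * _ ≤ ‖E η₀‖
      rw [hη₀, proj_apply hEp, ← hη₀, pow_zero, ← hc₀]
      linarith
    | succ j ih =>
      have h1 : ‖(X j : H →L[ℂ] H) η₀ - (X (j + 1) : H →L[ℂ] H) η₀‖ ≤ c₀ * (1 / 4) ^ (j + 1) :=
        hloss j (G j).1 (G j).2
      have h2 := norm_sub_norm_le ((X j : H →L[ℂ] H) η₀) ((X (j + 1) : H →L[ℂ] H) η₀)
      rw [pow_succ] at h1 ⊢
      nlinarith
  have hx0 : (x : H →L[ℂ] H) ≠ 0 := by
    intro h1
    have h2 : (c₀ * (2 / 3)) ^ 2 ≤ (⟪(x : H →L[ℂ] H) η₀, η₀⟫_ℂ).re := by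
      refine ge_of_tendsto ((Complex.continuous_re.tendsto _).comp (hxl η₀ η₀))
        (Eventually.of_forall fun j => ?_)
      show _ ≤ (⟪(X j : H →L[ℂ] H) η₀, η₀⟫_ℂ).re
      rw [re_inner_proj_self (hXp j)]
      refine pow_le_pow_left₀ (by positivity) (le_trans ?_ (hXn j)) 2
      exact mul_le_mul_of_nonneg_left (le_add_of_nonneg_right (by positivity)) hc₀0.le
    rw [h1, zero_apply, inner_zero_left, Complex.zero_re] at h2
    nlinarith [pow_pos (mul_pos hc₀0 (show (0 : ℝ) < 2 / 3 by norm_num)) 2]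
  refine hx0 (eq_zero_of_copies hfin hxp (fun j => (x : H →L[ℂ] H) * V j) P
    (fun j => mul_mem x.2 (hVM j _ _)) (fun j => ?_) (fun j => ?_) (fun i j hij => ?_) fun j => ?_)
  · show (x : H →L[ℂ] H) * V j * star ((x : H →L[ℂ] H) * V j) = x
    have h1 : (X (j + 1) : H →L[ℂ] H) * x = x := congrArg Subtype.val (habs (j + 1))
    have h2 : V j * star (V j) = (X (j + 1) : H →L[ℂ] H) := hVV j _ _
    rw [star_mul, hxp.isSelfAdjoint.star_eq, mul_assoc, ← mul_assoc (V j), h2, h1,
      hxp.isIdempotentElem.eq]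
  · simp only [hP, hPn]
    exact isStarProjection_sum _ hpp hpo
  · simp only [hP, hPn]
    rw [Finset.sum_mul]
    refine Finset.sum_eq_zero fun n hn => ?_
    rw [Finset.mul_sum]
    refine Finset.sum_eq_zero fun m hm => hpo n m ?_
    have h1 := htn i _ _ n hn
    have h2 := htn j _ _ m hm
    rcases Nat.lt_or_gt_of_ne hij with h | h
    · have h3 : Nn i (G i).1 (G i).2 ≤ (G j).2 := hNmono h
      omega
    · have h3 : Nn j (G j).1 (G j).2 ≤ (G i).2 := hNmono h
      omega
  · show (x : H →L[ℂ] H) * V j * P j = (x : H →L[ℂ] H) * V j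
    rw [mul_assoc]
    exact congrArg _ (hVP j _ _)

end Vale.Agent.P082.Every.C2
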