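import Vale.Agent.P082.Every.C2.Functional
import Vale.Agent.P082.Every.C2.Orbit

/-!
# P082 C2: the weak* compact hull of the unitary orbit of a vector functional
-/

namespace Vale.Agent.P082.Every.C2

open scoped InnerProductSpace ComplexOrder Topology
open Filter

universe u

variable {H : Type u} [NormedAddCommGroup H] [InnerProductSpace ℂ H] [CompleteSpace H]
variable {M : VonNeumannAlgebra H}

/-- The weak* dual of the algebra. -/
abbrev WD (M : VonNeumannAlgebra H) := WeakDual ℂ (Alg M)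

/-- Conjugation by a unitary. -/
noncomputable def conjU (u : unitary (Alg M)) : Alg M →L[ℂ] Alg M :=
  ContinuousLinearMap.mulLeftRight ℂ (Alg M) (star (u : Alg M)) (u : Alg M)

theorem conjU_apply (u : unitary (Alg M)) (x : Alg M) :
    conjU u x = star (u : Alg M) * x * (u : Alg M) := rfl

theorem norm_conjU_le (u : unitary (Alg M)) (x : Alg M) : ‖conjU u x‖ ≤ ‖x‖ := by
  rw [conjU_apply]
  refine le_of_eq ?_
  have h1 : ‖star (u : Alg M) * (x * (u : Alg M))‖ = ‖x * (u : Alg M)‖ :=
    CStarRing.norm_mem_unitary_mul _ (Unitary.star_mem u.2)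
  rw [mul_assoc, h1, CStarRing.norm_mul_mem_unitary _ u.2]

/-- The action of the unitaries on the functionals. -/
noncomputable def act (u : unitary (Alg M)) (ψ : WD M) : WD M :=
  StrongDual.toWeakDual ((WeakDual.toStrongDual ψ).comp (conjU u))

theorem act_apply (u : unitary (Alg M)) (ψ : WD M) (x : Alg M) :
    act u ψ x = ψ (star (u : Alg M) * x * (u : Alg M)) := rfl

theorem act_one (ψ : WD M) : act 1 ψ = ψ := DFunLike.ext _ _ fun x => by
  rw [act_apply, OneMemClass.coe_one, star_one, one_mul, mul_one]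

theorem act_act (u v : unitary (Alg M)) (ψ : WD M) : act u (act v ψ) = act (u * v) ψ :=
  DFunLike.ext _ _ fun x => by
    rw [act_apply, act_apply, act_apply, Submonoid.coe_mul, star_mul]
    simp only [mul_assoc]

theorem continuous_act (u : unitary (Alg M)) : Continuous (act u : WD M → WD M) :=
  WeakDual.continuous_of_continuous_eval fun x => WeakDual.eval_continuous (conjU u x)

/-- Evaluation, as a real linear map on the weak* dual. -/
noncomputable def evalR (x : Alg M) : WD M →ₗ[ℝ] ℂ where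
  toFun ψ := ψ x
  map_add' _ _ := rfl
  map_smul' _ _ := rfl

theorem norm_act_le (u : unitary (Alg M)) (ψ : WD M) :
    ‖WeakDual.toStrongDual (act u ψ)‖ ≤ ‖WeakDual.toStrongDual ψ‖ :=
  ContinuousLinearMap.opNorm_le_bound _ (norm_nonneg _) fun x =>
    ((WeakDual.toStrongDual ψ).le_opNorm (conjU u x)).trans
      (mul_le_mul_of_nonneg_left (norm_conjU_le u x) (norm_nonneg _))

theorem norm_le_sub_act (u : unitary (Alg M)) (ψ χ : WD M) :
    ‖WeakDual.toStrongDual ψ - WeakDual.toStrongDual χ‖ ≤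
      ‖WeakDual.toStrongDual (act u ψ) - WeakDual.toStrongDual (act u χ)‖ := by
  have h := norm_act_le (star u) (act u (ψ - χ))
  rw [act_act, Unitary.star_mul_self, act_one] at h
  rw [← map_sub]
  refine h.trans (le_of_eq (congrArg _ ?_))
  exact ContinuousLinearMap.ext fun x => rfl

/-- The conditions that cut out the hull of the unitary orbit of `vecF η η`. -/
structure InHull (η : H) (ψ : WD M) : Prop where
  norm_le : ‖WeakDual.toStrongDual ψ‖ ≤ ‖η‖ ^ 2
  pos : ∀ x, 0 ≤ ψ (star x * x)
  central : ∀ c : Alg M, (∀ x, c * x = x * c) → ψ c = ⟪η, ev η c⟫_ℂ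
  small : ∀ a : Alg M, IsStarProjection a → ∀ B : ℝ,
    (∀ u ∈ unitary (Alg M), ‖ev (ev η u) a‖ ^ 2 ≤ B) → (ψ a).re ≤ B

/-- The hull. -/
def hull (M : VonNeumannAlgebra H) (η : H) : Set (WD M) := {ψ | InHull η ψ}

/-- The functional of the vector. -/
noncomputable def om (M : VonNeumannAlgebra H) (η : H) : WD M := StrongDual.toWeakDual (vecF M η η)

theorem om_mem (η : H) : om M η ∈ hull M η where
  norm_le := (norm_vecF_le M η η).trans (by rw [pow_two])
  pos x := by
    show 0 ≤ ⟪η, ev η (star x * x)⟫_ℂ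
    rw [show ev η (star x * x) = star (x : H →L[ℂ] H) ((x : H →L[ℂ] H) η) from rfl,
      ContinuousLinearMap.star_eq_adjoint, ContinuousLinearMap.adjoint_inner_right,
      inner_self_eq_norm_sq_to_K]
    exact pow_nonneg (Complex.zero_le_real.2 (norm_nonneg ((x : H →L[ℂ] H) η))) 2
  central c _ := rfl
  small a ha B hB := by
    refine le_trans (le_of_eq ?_) (hB 1 (one_mem _))
    show (⟪η, (a : H →L[ℂ] H) η⟫_ℂ).re = ‖(a : H →L[ℂ] H) η‖ ^ 2
    rw [← Vale.Agent.P132.Homog.inner_proj (proj_coe ha)]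
    exact re_inner_proj_self (proj_coe ha) η

theorem isClosed_hull (η : H) : IsClosed (hull M η) := by
  have h : hull M η = (WeakDual.toStrongDual ⁻¹' Metric.closedBall 0 (‖η‖ ^ 2)) ∩
      ((⋂ x : Alg M, {ψ : WD M | 0 ≤ ψ (star x * x)}) ∩
      ((⋂ c : {c : Alg M // ∀ x, c * x = x * c}, {ψ : WD M | ψ c.1 = ⟪η, ev η c.1⟫_ℂ}) ∩
      ⋂ p : {p : Alg M × ℝ // IsStarProjection p.1 ∧
        ∀ u ∈ unitary (Alg M), ‖ev (ev η u) p.1‖ ^ 2 ≤ p.2}, {ψ : WD M | (ψ p.1.1).re ≤ p.1.2})) := by
    ext ψ
    simp only [Set.mem_inter_iff, Set.mem_preimage, Metric.mem_closedBall, Set.mem_iInter,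
      dist_zero_right]
    exact ⟨fun h => ⟨h.norm_le, h.pos, fun c => h.central c.1 c.2,
        fun p => h.small p.1.1 p.2.1 p.1.2 p.2.2⟩,
      fun h => ⟨h.1, h.2.1, fun c hc => h.2.2.1 ⟨c, hc⟩,
        fun a ha B hB => h.2.2.2 ⟨(a, B), ha, hB⟩⟩⟩
  rw [h]
  refine (WeakDual.isClosed_closedBall 0 _).inter ((isClosed_iInter fun x => ?_).inter
    ((isClosed_iInter fun c => ?_).inter (isClosed_iInter fun p => ?_)))
  · exact isClosed_Ici.preimage (WeakDual.eval_continuous _)
  · exact isClosed_eq (WeakDual.eval_continuous _) continuous_const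
  · exact isClosed_le (Complex.continuous_re.comp (WeakDual.eval_continuous _)) continuous_const

theorem isCompact_hull (η : H) : IsCompact (hull M η) :=
  (WeakDual.isCompact_closedBall 0 (‖η‖ ^ 2)).of_isClosed_subset (isClosed_hull η) fun ψ hψ =>
    mem_closedBall_zero_iff.2 hψ.norm_le

theorem convex_hull' (η : H) : Convex ℝ (hull M η) := fun ψ hψ χ hχ a b ha hb hab => by
  have he : ∀ x, (a • ψ + b • χ) x = a • ψ x + b • χ x := fun x => rfl
  refine ⟨?_, fun x => ?_, fun c hc => ?_, fun p hp B hB => ?_⟩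
  · have : WeakDual.toStrongDual (a • ψ + b • χ) =
        a • WeakDual.toStrongDual ψ + b • WeakDual.toStrongDual χ := rfl
    rw [this]
    refine (norm_add_le _ _).trans ?_
    rw [norm_smul, norm_smul, Real.norm_of_nonneg ha, Real.norm_of_nonneg hb]
    calc a * _ + b * _ ≤ a * ‖η‖ ^ 2 + b * ‖η‖ ^ 2 := add_le_add
          (mul_le_mul_of_nonneg_left hψ.norm_le ha) (mul_le_mul_of_nonneg_left hχ.norm_le hb)
      _ = ‖η‖ ^ 2 := by rw [← add_mul, hab, one_mul]
  · rw [he]
    exact add_nonneg (smul_nonneg ha (hψ.pos x)) (smul_nonneg hb (hχ.pos x))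
  · rw [he, hψ.central c hc, hχ.central c hc, ← add_smul, hab, one_smul]
  · rw [he, Complex.add_re, Complex.smul_re, Complex.smul_re, smul_eq_mul, smul_eq_mul]
    calc a * _ + b * _ ≤ a * B + b * B := add_le_add
          (mul_le_mul_of_nonneg_left (hψ.small p hp B hB) ha)
          (mul_le_mul_of_nonneg_left (hχ.small p hp B hB) hb)
      _ = B := by rw [← add_mul, hab, one_mul]

theorem act_mem {η : H} {ψ : WD M} (hψ : ψ ∈ hull M η) (u : unitary (Alg M)) :
    act u ψ ∈ hull M η where
  norm_le := (norm_act_le u ψ).trans hψ.norm_le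
  pos x := by
    rw [act_apply, show star (u : Alg M) * (star x * x) * (u : Alg M) =
      star (x * (u : Alg M)) * (x * (u : Alg M)) by simp only [star_mul, mul_assoc]]
    exact hψ.pos _
  central c hc := by
    rw [act_apply, mul_assoc, hc, ← mul_assoc, Unitary.star_mul_self_of_mem u.2, one_mul,
      hψ.central c hc]
  small a ha B hB := by
    rw [act_apply]
    refine hψ.small _ ?_ B fun v hv => ?_
    · refine ⟨?_, ha.isSelfAdjoint.conjugate' _⟩
      show star (u : Alg M) * a * (u : Alg M) * (star (u : Alg M) * a * (u : Alg M)) = _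
      calc star (u : Alg M) * a * (u : Alg M) * (star (u : Alg M) * a * (u : Alg M))
          = star (u : Alg M) * a * ((u : Alg M) * star (u : Alg M)) * a * (u : Alg M) := by
            simp only [mul_assoc]
        _ = star (u : Alg M) * (a * a) * (u : Alg M) := by
            rw [Unitary.mul_star_self_of_mem u.2, mul_one]; simp only [mul_assoc]
        _ = _ := by rw [ha.isIdempotentElem.eq]
    · refine le_trans (le_of_eq ?_) (hB ((u : Alg M) * v) (mul_mem u.2 hv))
      congr 1
      show ‖(star (u : Alg M) : H →L[ℂ] H) ((a : H →L[ℂ] H) ((u : H →L[ℂ] H) (ev η v)))‖ = _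
      exact ContinuousLinearMap.norm_map_of_mem_unitary
        (Unitary.star_mem (Avg.coe_mem_unitary u.2)) _

theorem isNormalPos_of_mem (hfin : IsFiniteVN M) {η : H} {ψ : WD M} (hψ : ψ ∈ hull M η) :
    IsNormalPos (WeakDual.toStrongDual ψ) where
  pos := hψ.pos
  small s hs ε hε := by
    obtain ⟨a, ha, hsm⟩ := stmtOrbit H M hfin s hs η (√ε) (Real.sqrt_pos.2 hε)
    refine ⟨a, ha, hψ.small a (hs.proj a ha) ε fun u hu => ?_⟩
    exact (pow_le_pow_left₀ (norm_nonneg _) (hsm u hu) 2).trans (le_of_eq (Real.sq_sqrt hε.le))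

end Vale.Agent.P082.Every.C2
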