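import Vale.Agent.P082.Every.C2.Vec

/-!
# P082 C2 (b2): normal tracial functionals are sums of vector states
-/

namespace Vale.Agent.P082.Every.C2

open scoped InnerProductSpace ComplexOrder InnerProduct

universe u

/-- (b2) -/
theorem stmtTraceVec : StmtTraceVec.{u} := by
  intro H _ _ _ M ψ hψ htr
  classical
  obtain ⟨B, hBp, hBg, htail⟩ := exists_tail hψ
  obtain ⟨G, _, _, _, π, Ω, hG⟩ := exists_gns hψ.pos
  have key : ∀ q : B, ∃ ζ : H, ∀ x : Alg M,
      ψ (star x * x * q) = ((‖ev ζ x‖ ^ 2 : ℝ) : ℂ) := by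
    intro q
    obtain ⟨ξ, -, hξ⟩ := hBg _ q.2
    obtain ⟨V, hV, hVx⟩ := exists_intertwiner π (π q.1 Ω) ξ fun x => by
      refine le_of_pow_le_pow_left₀ two_ne_zero (norm_nonneg _) (le_trans ?_ (hξ x))
      rw [hG, map_mul, mul_apply_eq_comp]
      exact (inner_self_eq_norm_sq (𝕜 := ℂ) _).ge
    set T : H →L[ℂ] H := (ContinuousLinearMap.adjoint V).comp V with hT
    have hTpos : 0 ≤ T := (ContinuousLinearMap.nonneg_iff_isPositive T).2
      (ContinuousLinearMap.isPositive_adjoint_comp_self V)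
    have hcomm : ∀ x : Alg M, Commute T (x : H →L[ℂ] H) := fun x => by
      refine ContinuousLinearMap.ext fun v => ext_inner_left ℂ fun u => ?_
      simp only [mul_apply_eq_comp, hT, ContinuousLinearMap.comp_apply]
      rw [ContinuousLinearMap.adjoint_inner_right, hVx,
        ← ContinuousLinearMap.adjoint_inner_left (x : H →L[ℂ] H),
        ← ContinuousLinearMap.star_eq_adjoint, ← StarMemClass.coe_star,
        ContinuousLinearMap.adjoint_inner_right, hVx, map_star,
        ContinuousLinearMap.star_eq_adjoint, ContinuousLinearMap.adjoint_inner_left]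
    set S : H →L[ℂ] H := CFC.sqrt T with hS
    have hSsa : IsSelfAdjoint S := IsSelfAdjoint.of_nonneg (CFC.sqrt_nonneg T)
    refine ⟨S ξ, fun x => ?_⟩
    have hSx : Commute S (x : H →L[ℂ] H) := (hcomm x).cfcₙ_nnreal NNReal.sqrt
    have h1 : ev (S ξ) x = S (ev ξ x) :=
      (congrArg (fun A : H →L[ℂ] H => A ξ) hSx.eq).symm
    have h2 : (((‖S (ev ξ x)‖ ^ 2 : ℝ)) : ℂ) = ⟪V (ev ξ x), V (ev ξ x)⟫_ℂ := by
      rw [inner_self_eq_norm_sq_to_K]
      have e : ‖S (ev ξ x)‖ ^ 2 = ‖V (ev ξ x)‖ ^ 2 := by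
        have e1 : ⟪S (ev ξ x), S (ev ξ x)⟫_ℂ = ⟪V (ev ξ x), V (ev ξ x)⟫_ℂ := by
          rw [Vale.Agent.P078.General.inner_sa hSsa, ← mul_apply_eq_comp, hS,
            CFC.sqrt_mul_sqrt_self T hTpos, hT, ContinuousLinearMap.comp_apply,
            ContinuousLinearMap.adjoint_inner_right]
        exact ((inner_self_eq_norm_sq (𝕜 := ℂ) _).symm.trans (congrArg Complex.re e1)).trans
          (inner_self_eq_norm_sq (𝕜 := ℂ) _)
      rw [e]
      norm_num
    rw [h1, h2, hV, ← mul_apply_eq_comp, ← map_mul, ← hG, star_mul,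
      (hBp _ q.2).isSelfAdjoint.star_eq]
    calc ψ (star x * x * q) = ψ (star x * x * q * q) := by
          rw [mul_assoc _ q.1 q.1, (hBp _ q.2).isIdempotentElem.eq]
      _ = ψ (q * (star x * x * q)) := htr _ _
      _ = _ := by simp only [mul_assoc]
  choose ζ hζ using key
  have hsum : ∀ x : Alg M, HasSum (fun q : B => ((‖ev (ζ q) x‖ ^ 2 : ℝ) : ℂ)) (ψ (star x * x)) := by
    intro x
    rw [HasSum, SummationFilter.unconditional_filter, Metric.tendsto_atTop]
    intro δ hδ
    obtain ⟨t₀, ht₀⟩ := htail (δ / (2 * (‖star x * x‖ + 1))) (by positivity)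
    refine ⟨t₀, fun t ht => ?_⟩
    rw [dist_eq_norm, norm_sub_rev]
    simp only [← hζ]
    refine (ht₀ t ht _).trans_lt ?_
    rw [div_mul_eq_mul_div, div_lt_iff₀ (by positivity)]
    nlinarith [norm_nonneg (star x * x)]
  have hsumR : ∀ x : Alg M, HasSum (fun q : B => ‖ev (ζ q) x‖ ^ 2) (ψ (star x * x)).re := by
    intro x
    simpa only [Complex.ofReal_re] using Complex.hasSum_re (hsum x)
  have hζ2 : Summable fun q : B => ‖ζ q‖ ^ 2 := by
    have h := (hsumR 1).summable
    simpa [ev] using h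
  set supp := Function.support fun q : B => ‖ζ q‖ ^ 2
  haveI : Countable supp := hζ2.countable_support.to_subtype
  obtain ⟨e, he⟩ := Countable.exists_injective_nat supp
  set ξ : ℕ → H := Function.extend e (fun q : supp => ζ q.1) 0 with hξ
  have trans : ∀ (f : H → ℝ), f 0 = 0 → ∀ a : ℝ, HasSum (fun q : B => f (ζ q)) a →
      HasSum (fun n => f (ξ n)) a := by
    intro f hf0 a ha
    have h1 : HasSum (fun q : supp => f (ζ q.1)) a :=
      (hasSum_subtype_iff_of_support_subset fun q hq => by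
        by_contra hs
        exact hq (show f (ζ q) = 0 by rw [show ζ q = 0 by simpa [supp] using hs, hf0])).2 ha
    have h2 : (fun n => f (ξ n)) ∘ e = fun q : supp => f (ζ q.1) :=
      funext fun q => by simp [hξ, he.extend_apply]
    refine (he.hasSum_iff fun n hn => ?_).1 (by rw [h2]; exact h1)
    rw [hξ, Function.extend_apply' _ _ _ (by simpa using hn)]
    exact hf0
  refine ⟨ξ, (trans (fun v => ‖v‖ ^ 2) (by simp) _ hζ2.hasSum).summable, fun x => ?_⟩
  have h := trans (fun v => ‖ev v x‖ ^ 2) (by simp [ev]) _ (hsumR x)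
  rw [h.tsum_eq]
  refine Complex.ext (by simp) ?_
  simpa using (Complex.nonneg_iff.1 (hψ.pos x)).2.symm

end Vale.Agent.P082.Every.C2
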