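import Vale.Agent.P082.Every.C2.Fixed
import Vale.Agent.P082.Every.C2.TraceVec

/-!
# P082 C2: a finite von Neumann algebra has separating normal traces
-/

namespace Vale.Agent.P082.Every.C2

open scoped InnerProductSpace ComplexOrder
open Vale.Agent.P078.General

universe u

variable {H : Type u} [NormedAddCommGroup H] [InnerProductSpace ℂ H] [CompleteSpace H]

theorem mapsTo_closure_span {S : Set H} {T : H →L[ℂ] H}
    (hT : ∀ v ∈ S, T v ∈ (Submodule.span ℂ S).topologicalClosure) :
    ∀ v ∈ (Submodule.span ℂ S).topologicalClosure, T v ∈ (Submodule.span ℂ S).topologicalClosure :=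
  fun v hv => (Submodule.span ℂ S).topologicalClosure_minimal
    (t := (Submodule.span ℂ S).topologicalClosure.comap (T : H →ₗ[ℂ] H))
    (Submodule.span_le.2 hT)
    ((Submodule.isClosed_topologicalClosure _).preimage T.continuous) hv

/-- (C2) -/
theorem stmtC2.{v} : Vale.Agent.P082.Every.StmtC2.{v} := by
  intro H _ _ _ M hfin y hy hy0
  classical
  set S : Set H := Set.range fun p : Alg M × H => (p.1 : H →L[ℂ] H) (y p.2) with hS
  set K := (Submodule.span ℂ S).topologicalClosure with hK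
  have hKc : IsClosed (K : Set H) := Submodule.isClosed_topologicalClosure _
  have : CompleteSpace K := hKc.completeSpace_coe
  have hSK : ∀ p : Alg M × H, (p.1 : H →L[ℂ] H) (y p.2) ∈ K := fun p =>
    Submodule.le_topologicalClosure _ (Submodule.subset_span ⟨p, rfl⟩)
  have hMK : ∀ x : Alg M, ∀ v ∈ K, (x : H →L[ℂ] H) v ∈ K := fun x =>
    mapsTo_closure_span fun v hv => by
      obtain ⟨⟨a, w⟩, rfl⟩ := hv
      exact hSK (x * a, w)
  have hCK : ∀ g ∈ M.commutant, ∀ v ∈ K, g v ∈ K := fun g hg =>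
    mapsTo_closure_span fun v hv => by
      obtain ⟨⟨a, w⟩, rfl⟩ := hv
      have h1 := VonNeumannAlgebra.mem_commutant_iff.1 hg _ (mul_mem a.2 hy)
      have h2 := congrArg (fun T : H →L[ℂ] H => T w) h1
      simp only [mul_apply_eq_comp] at h2
      show g ((a : H →L[ℂ] H) (y w)) ∈ K
      rw [← h2]
      exact hSK (a, g w)
  set P : H →L[ℂ] H := K.starProjection with hP
  have hPp : IsStarProjection P := isStarProjection_starProjection
  have hPM : P ∈ M := mem_of_commute_commutant M fun g hg =>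
    (commute_starProjection (hCK g hg) (hCK (star g) (star_mem hg))).eq.symm
  have hPc : ∀ x : Alg M, (⟨P, hPM⟩ : Alg M) * x = x * ⟨P, hPM⟩ := fun x =>
    Subtype.ext (commute_starProjection (hMK x) (hMK (star x))).eq
  obtain ⟨v, hv⟩ : ∃ v, y v ≠ 0 := by
    by_contra h
    push Not at h
    exact hy0 (ContinuousLinearMap.ext h)
  obtain ⟨ψ, hψ, htr, hcen⟩ := stmtFixed_of stmtVecApprox H M hfin (y v)
  obtain ⟨ξ, hξs, hξ⟩ := stmtTraceVec H M ψ hψ htr
  refine ⟨ξ, hξs, fun x hx => ?_, ?_⟩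
  · have h1 := hξ (star (⟨x, hx⟩ : Alg M))
    rw [star_star, htr, hξ ⟨x, hx⟩] at h1
    exact (Complex.ofReal_inj.1 h1).symm
  by_contra hzero
  push Not at hzero
  set ya : Alg M := ⟨y, hy⟩ with hya
  have hsum : ∀ x : Alg M, Summable fun n => ‖ev (ξ n) x‖ ^ 2 := fun x =>
    .of_nonneg_of_le (fun n => sq_nonneg _) (fun n => by
      rw [← mul_pow]
      exact pow_le_pow_left₀ (norm_nonneg _) ((x : H →L[ℂ] H).le_opNorm _) 2)
      (hξs.mul_left (‖(x : H →L[ℂ] H)‖ ^ 2))
  have h0 : ψ (star ya * ya) = 0 := by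
    rw [hξ, show (fun n => ‖ev (ξ n) ya‖ ^ 2) = fun _ => (0 : ℝ) from funext fun n => by
      show ‖y (ξ n)‖ ^ 2 = 0
      rw [hzero n, norm_zero, zero_pow two_ne_zero], tsum_zero, Complex.ofReal_zero]
  -- the positive functional kills every `a y y* a*`
  have hkill : ∀ (a : Alg M) (n : ℕ), ev (ξ n) (star ya * star a) = 0 := by
    intro a
    have h1 : ∀ w : Alg M, (ψ (star w * w)).re = ∑' n, ‖ev (ξ n) w‖ ^ 2 := fun w => by
      rw [hξ, Complex.ofReal_re]
    have h2 : ∑' n, ‖ev (ξ n) (star ya * star a)‖ ^ 2 = 0 := by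
      refine le_antisymm ?_ (tsum_nonneg fun n => sq_nonneg _)
      have h3 : ψ (star (star ya * star a) * (star ya * star a)) = ψ (star (a * ya) * (a * ya)) := by
        simp only [star_mul, star_star]
        exact htr _ _
      rw [← h1, h3, h1]
      refine le_of_eq ((tsum_congr fun n => ?_).trans tsum_zero)
      show ‖(a : H →L[ℂ] H) (y (ξ n))‖ ^ 2 = 0
      rw [hzero n, map_zero, norm_zero, zero_pow two_ne_zero]
    intro n
    have h4 := (hsum (star ya * star a)).le_tsum n fun j _ => sq_nonneg _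
    rw [h2] at h4
    exact norm_eq_zero.1 (sq_eq_zero_iff.1 (le_antisymm h4 (sq_nonneg _)))
  have horth : ∀ n, P (ξ n) = 0 := fun n => by
    have h5 : ξ n ∈ Kᗮ := by
      refine (Submodule.mem_orthogonal' _ _).2 fun w hw => ?_
      refine (Submodule.span ℂ S).topologicalClosure_minimal
        (t := LinearMap.ker ((innerSL ℂ (ξ n)).toLinearMap)) ?_
        (ContinuousLinearMap.isClosed_ker (innerSL ℂ (ξ n))) hw
      rw [Submodule.span_le]
      rintro _ ⟨⟨a, w'⟩, rfl⟩
      show ⟪ξ n, (a : H →L[ℂ] H) (y w')⟫_ℂ = 0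
      have h6 := hkill a n
      rw [← ContinuousLinearMap.adjoint_inner_left, ← ContinuousLinearMap.adjoint_inner_left,
        show ContinuousLinearMap.adjoint y (ContinuousLinearMap.adjoint (a : H →L[ℂ] H) (ξ n))
          = 0 from h6, inner_zero_left]
    exact (Submodule.starProjection_apply_eq_zero_iff K).2 h5
  have hP0 : ψ ⟨P, hPM⟩ = 0 := by
    have h7 : star (⟨P, hPM⟩ : Alg M) * ⟨P, hPM⟩ = ⟨P, hPM⟩ :=
      Subtype.ext (by
        show star P * P = P
        rw [hPp.isSelfAdjoint.star_eq, hPp.isIdempotentElem.eq])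
    rw [← h7, hξ, show (fun n => ‖ev (ξ n) (⟨P, hPM⟩ : Alg M)‖ ^ 2) = fun _ => (0 : ℝ) from
      funext fun n => by
        show ‖P (ξ n)‖ ^ 2 = 0
        rw [horth n, norm_zero, zero_pow two_ne_zero], tsum_zero, Complex.ofReal_zero]
  have hPη : P (y v) = y v :=
    Submodule.starProjection_eq_self_iff.2 (by simpa using hSK (1, v))
  rw [hcen _ hPc] at hP0
  refine hv (inner_self_eq_zero (𝕜 := ℂ).1 ?_)
  rw [show ev (y v) (⟨P, hPM⟩ : Alg M) = P (y v) from rfl, hPη] at hP0
  exact hP0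

end Vale.Agent.P082.Every.C2
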