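import Vale.Agent.P082.Every.C2.Defs
import Vale.Agent.P082.Avg.Tools

/-!
# P082 C2: weak limits are strong limits of convex combinations
-/

namespace Vale.Agent.P082.Every.C2

open scoped InnerProductSpace Topology
open Filter

universe u

variable {H : Type u} [NormedAddCommGroup H] [InnerProductSpace ℂ H] [CompleteSpace H]

/-- On finitely many vectors a weak limit is approximated in norm by a convex combination. -/
theorem exists_convex_approx {M : VonNeumannAlgebra H} {U : Ultrafilter ℕ}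
    (hU : (U : Filter ℕ) ≤ atTop) {q : ℕ → Alg M} {h : Alg M} (hq : Avg.IsWLim U q h) (N : ℕ)
    {k : ℕ} (v : Fin k → H) {δ : ℝ} (hδ : 0 < δ) :
    ∃ (s : Finset ℕ) (c : ℕ → ℝ), (∀ n ∈ s, N ≤ n ∧ 0 ≤ c n) ∧ ∑ n ∈ s, c n = 1 ∧
      ∀ i, ‖(∑ n ∈ s, (c n : ℂ) • (q n : H →L[ℂ] H)) (v i) - (h : H →L[ℂ] H) (v i)‖ ≤ δ := by
  classical
  let E := PiLp 2 fun _ : Fin k => H
  let : InnerProductSpace ℝ E := InnerProductSpace.rclikeToReal ℂ E
  let L : (H →L[ℂ] H) →ₗ[ℝ] E :=
    { toFun := fun A => WithLp.toLp 2 fun i => A (v i)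
      map_add' := fun A B => WithLp.ofLp_injective 2 (funext fun i => rfl)
      map_smul' := fun r A => WithLp.ofLp_injective 2 (funext fun i => rfl) }
  have hL : ∀ A i, (L A).ofLp i = A (v i) := fun _ _ => rfl
  set S : Set (H →L[ℂ] H) := (fun n => (q n : H →L[ℂ] H)) '' Set.Ici N with hS
  set K := closure (L '' convexHull ℝ S) with hK
  have hne : K.Nonempty :=
    ⟨L (q N), subset_closure ⟨_, subset_convexHull ℝ S ⟨N, Set.self_mem_Ici, rfl⟩, rfl⟩⟩
  have hconv : Convex ℝ K := ((convex_convexHull ℝ S).linear_image L).closure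
  set t := L (h : H →L[ℂ] H) with ht
  obtain ⟨w, hwK, hw⟩ := exists_norm_eq_iInf_of_complete_convex hne isClosed_closure.isComplete
    hconv t
  have hvar := (norm_eq_iInf_iff_real_inner_le_zero hconv hwK).1 hw
  have hzero : t = w := by
    have hlim : Tendsto (fun n => (⟪t - w, L (q n) - w⟫_ℂ).re) (U : Filter ℕ)
        (𝓝 (⟪t - w, t - w⟫_ℂ).re) := by
      have h1 : Tendsto (fun n => ⟪t - w, L (q n)⟫_ℂ) (U : Filter ℕ) (𝓝 ⟪t - w, t⟫_ℂ) := by
        simp only [PiLp.inner_apply, ht, hL]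
        refine tendsto_finsetSum _ fun i _ => ?_
        have h2 := (hq (v i) ((t - w).ofLp i)).star
        simp only [RCLike.star_def, inner_conj_symm] at h2
        exact h2
      have h3 := (Complex.continuous_re.tendsto _).comp (h1.sub_const ⟪t - w, w⟫_ℂ)
      simpa [Function.comp_def, inner_sub_right] using h3
    have hle : (⟪t - w, t - w⟫_ℂ).re ≤ 0 := by
      refine le_of_tendsto hlim (Filter.Eventually.filter_mono hU ?_)
      filter_upwards [Filter.eventually_ge_atTop N] with n hn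
      have := hvar (L (q n)) (subset_closure ⟨_, subset_convexHull ℝ S ⟨n, hn, rfl⟩, rfl⟩)
      rwa [real_inner_eq_re_inner ℂ, RCLike.re_to_complex] at this
    have h0 : ‖t - w‖ ^ 2 ≤ 0 := by
      rwa [← inner_self_eq_norm_sq (𝕜 := ℂ), RCLike.re_to_complex]
    exact sub_eq_zero.1 (norm_eq_zero.1 (by nlinarith [norm_nonneg (t - w)]))
  obtain ⟨z, ⟨A, hA, rfl⟩, hd⟩ := Metric.mem_closure_iff.1 (hzero ▸ hwK : t ∈ K) δ hδ
  rw [convexHull_eq_union_convexHull_finite_subsets] at hA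
  simp only [Set.mem_iUnion] at hA
  obtain ⟨T, hTS, hAT⟩ := hA
  obtain ⟨c, hc0, hc1, hcA⟩ := Finset.mem_convexHull'.1 hAT
  have hch : ∀ B ∈ T, ∃ n, N ≤ n ∧ (q n : H →L[ℂ] H) = B := fun B hB => hTS hB
  choose! g hg using hch
  refine ⟨T.image g, fun n => c (q n : H →L[ℂ] H), fun n hn => ?_, ?_, fun i => ?_⟩
  · obtain ⟨B, hB, rfl⟩ := Finset.mem_image.1 hn
    exact ⟨(hg B hB).1, by show 0 ≤ c _; rw [(hg B hB).2]; exact hc0 B hB⟩
  · rw [Finset.sum_image fun a ha b hb e => by rw [← (hg a ha).2, ← (hg b hb).2, e]]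
    exact (Finset.sum_congr rfl fun B hB => by rw [(hg B hB).2]).trans hc1
  · rw [Finset.sum_image fun a ha b hb e => by rw [← (hg a ha).2, ← (hg b hb).2, e],
      Finset.sum_congr rfl fun B hB => by rw [(hg B hB).2]]
    rw [Finset.sum_congr rfl (g := fun B => (c B : ℂ) • B) fun B hB => by
        show (c (q (g B) : H →L[ℂ] H) : ℂ) • B = _
        rw [(hg B hB).2],
      show (∑ B ∈ T, (c B : ℂ) • B) = A from by simp [← hcA, Complex.coe_smul]]
    have h4 : ‖(L A - t).ofLp i‖ ≤ ‖L A - t‖ := PiLp.norm_apply_le _ i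
    rw [dist_eq_norm, norm_sub_rev] at hd
    exact h4.trans hd.le

end Vale.Agent.P082.Every.C2
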