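import Vale.Agent.P132.Homog.Grid

/-!
# P082 C2: normalising a positive operator above a spectral cut
-/

namespace Vale.Agent.P082.Every.C2

open scoped InnerProductSpace
open Vale.Agent.P078.General

universe u

variable {H : Type u} [NormedAddCommGroup H] [InnerProductSpace ℂ H] [CompleteSpace H]

/-- Above the cut at `δ` a positive operator becomes `1` after a two sided multiplication. -/
theorem exists_unitize (M : VonNeumannAlgebra H) {h : H →L[ℂ] H} (hM : h ∈ M) (h0 : 0 ≤ h)
    {δ : ℝ} (hδ : 0 < δ) :
    ∃ a ∈ M, star a = a ∧ Commute a h ∧ a * h * a * (1 - cut h δ) = 1 - cut h δ := by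
  have hs : IsSelfAdjoint h := IsSelfAdjoint.of_nonneg h0
  set f : ℝ → ℝ := fun z => (√(max z δ))⁻¹ with hf
  have hfc : Continuous f :=
    Continuous.inv₀ (by fun_prop) fun z => (Real.sqrt_pos.2 (lt_max_of_lt_right hδ)).ne'
  have hag : Commute (cfc f h) h := (Commute.refl h).cfc_real f
  refine ⟨cfc f h, mem_of_commute_commutant M fun z hz =>
    (Commute.cfc_real (VonNeumannAlgebra.mem_commutant_iff.1 hz _ hM) f).symm,
    (cfc_predicate f h : IsSelfAdjoint _).star_eq, hag, ?_⟩
  have hT := isStarProjection_cut h δ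
  set X := cfc f h * h * cfc f h - 1 with hX
  have hX2 : X = cfc (fun z => f z * z * f z - 1) h := by
    rw [cfc_sub (fun z => f z * z * f z) (fun _ => (1 : ℝ)) h
      ((hfc.mul continuous_id).mul hfc).continuousOn continuousOn_const, cfc_const (1 : ℝ) h,
      cfc_mul (fun z => f z * z) f h (hfc.mul continuous_id).continuousOn hfc.continuousOn,
      cfc_mul f (fun z => z) h hfc.continuousOn continuousOn_id, cfc_id' ℝ h, map_one]
  have hXs : IsSelfAdjoint X := hX2 ▸ cfc_predicate _ h
  have hXT : cut h δ * X = X := by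
    refine ContinuousLinearMap.ext fun v => Submodule.starProjection_eq_self_iff.2 ?_
    have hp : (shift h δ)⁺ = cfc (fun z => max (z - δ) 0) h := by
      rw [CFC.posPart_def, cfcₙ_eq_cfc, shift, Complex.coe_smul, ← Algebra.algebraMap_eq_smul_one]
      nth_rewrite 1 [← cfc_id' ℝ h]
      rw [← cfc_const δ h, ← cfc_sub (fun z : ℝ => z) (fun _ => δ) h, ← cfc_comp' _ _ h]
      rfl
    show (shift h δ)⁺ (X v) = 0
    rw [hp, hX2, ← mul_apply_eq_comp, ← cfc_mul (fun z => max (z - δ) 0) (fun z => f z * z * f z - 1) h (by fun_prop)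
      (((hfc.mul continuous_id).mul hfc).sub continuous_const).continuousOn]
    rw [cfc_congr (g := fun _ => (0 : ℝ)) (fun z _ => ?_), cfc_const_zero]
    · rfl
    rcases le_or_gt z δ with hz | hz
    · simp [max_eq_right (sub_nonpos.2 hz)]
    · have hzp : 0 < z := hδ.trans hz
      simp only [hf, max_eq_left hz.le]
      have e := Real.mul_self_sqrt hzp.le
      field_simp
      rw [Real.sq_sqrt hzp.le]
      ring
  have hXT' : X * cut h δ = X := by
    have := congrArg star hXT
    rwa [star_mul, hXs.star_eq, hT.isSelfAdjoint.star_eq] at this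
  have hz : X * (1 - cut h δ) = 0 := by rw [mul_sub, mul_one, hXT', sub_self]
  rwa [hX, sub_mul, one_mul, sub_eq_zero] at hz

end Vale.Agent.P082.Every.C2
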