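import Vale.Agent.P082.Every.C2.VecBase

/-!
# P082 C2 (b1): normal positive functionals and vector functionals
-/

namespace Vale.Agent.P082.Every.C2

open scoped InnerProductSpace ComplexOrder InnerProduct

universe u

variable {H : Type u} [NormedAddCommGroup H] [InnerProductSpace ℂ H] [CompleteSpace H]
variable {M : VonNeumannAlgebra H}

/-- The intertwiner from the space of a vector to a dominated cyclic space. -/
theorem exists_intertwiner {G : Type*} [NormedAddCommGroup G] [InnerProductSpace ℂ G]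
    [CompleteSpace G] (π : Alg M →⋆ₐ[ℂ] (G →L[ℂ] G)) (w : G) (ξ : H)
    (hle : ∀ x, ‖π x w‖ ≤ ‖ev ξ x‖) :
    ∃ V : H →L[ℂ] G, (∀ x, V (ev ξ x) = π x w) ∧
      ∀ (x : Alg M) (v : H), V ((x : H →L[ℂ] H) v) = π x (V v) := by
  let J : Alg M →ₗ[ℂ] H :=
    { toFun := ev ξ
      map_add' := fun x y => by simp [ev]
      map_smul' := fun c x => by simp [ev] }
  let J' : Alg M →ₗ[ℂ] G :=
    { toFun := fun x => π x w
      map_add' := fun x y => by simp
      map_smul' := fun c x => by simp }
  set K := (LinearMap.range J).topologicalClosure with hK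
  haveI : CompleteSpace K := (Submodule.isClosed_topologicalClosure _).completeSpace_coe
  have hmem : ∀ x, ev ξ x ∈ K := fun x =>
    Submodule.le_topologicalClosure _ (LinearMap.mem_range_self J x)
  let e : Alg M →ₗ[ℂ] K := J.codRestrict K hmem
  have hdense : DenseRange e := by
    intro v
    rw [Metric.mem_closure_iff]
    intro ε hε
    obtain ⟨_, ⟨x, rfl⟩, hd⟩ := Metric.mem_closure_iff.1 (v.2 : (v : H) ∈ closure _) ε hε
    exact ⟨e x, ⟨x, rfl⟩, hd⟩
  have hnorm : ∀ x, ‖J' x‖ ≤ 1 * ‖e x‖ := fun x => by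
    rw [one_mul]
    exact hle x
  set W := J'.extendOfNorm e with hW
  have hWe : ∀ x, W (e x) = π x w := fun x =>
    LinearMap.extendOfNorm_eq hdense ⟨1, hnorm⟩ x
  set P : H →L[ℂ] K := K.orthogonalProjection with hP
  have hPK : ∀ v : K, P (v : H) = v := fun v => by simp [hP]
  refine ⟨W.comp P, fun x => ?_, fun x v => ?_⟩
  · show W (P (ev ξ x)) = _
    rw [show ev ξ x = ((e x : K) : H) from rfl, hPK, hWe]
  have inv : ∀ (y : Alg M), ∀ u ∈ K, (y : H →L[ℂ] H) u ∈ K := fun y u hu => by
    have hle' : LinearMap.range J ≤ K.comap (y : H →L[ℂ] H).toLinearMap := by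
      rintro _ ⟨z, rfl⟩
      exact hmem (y * z)
    exact Submodule.topologicalClosure_minimal _ hle'
      ((Submodule.isClosed_topologicalClosure _).preimage (y : H →L[ℂ] H).continuous) hu
  have hK1 : ∀ u : K, W ⟨(x : H →L[ℂ] H) u, inv x u u.2⟩ = π x (W u) := by
    intro u
    induction u using DenseRange.induction_on hdense with
    | hp => exact isClosed_eq (by fun_prop) (by fun_prop)
    | ih z =>
      have : (⟨(x : H →L[ℂ] H) (e z : K), inv x _ (e z).2⟩ : K) = e (x * z) := rfl
      rw [this, hWe, hWe, map_mul]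
      rfl
  show W (P ((x : H →L[ℂ] H) v)) = π x (W (P v))
  rw [← hK1 (P v)]
  congr 1
  refine Subtype.ext ?_
  show K.starProjection ((x : H →L[ℂ] H) v) = (x : H →L[ℂ] H) (K.starProjection v)
  exact congrArg (fun T : H →L[ℂ] H => T v)
    (Vale.Agent.P078.General.commute_starProjection (inv x) (inv (star x))).eq

/-- (b1) -/
theorem stmtVecApprox : StmtVecApprox.{u} := by
  intro H _ _ _ M ψ hψ ε hε
  classical
  obtain ⟨B, hBp, hBg, htail⟩ := exists_tail hψ
  obtain ⟨G, _, _, _, π, Ω, hG⟩ := exists_gns hψ.pos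
  obtain ⟨t, ht⟩ := htail ε hε
  have key : ∀ q : B, ∃ η ξ : H, ∀ a, ψ (a * q) = vecF M η ξ a := by
    intro q
    obtain ⟨ξ, -, hξ⟩ := hBg _ q.2
    obtain ⟨V, hV, -⟩ := exists_intertwiner π (π q.1 Ω) ξ fun x => by
      refine le_of_pow_le_pow_left₀ two_ne_zero (norm_nonneg _) (le_trans ?_ (hξ x))
      rw [hG, map_mul, mul_apply_eq_comp]
      exact (inner_self_eq_norm_sq (𝕜 := ℂ) _).ge
    refine ⟨ContinuousLinearMap.adjoint V Ω, ξ, fun a => ?_⟩
    rw [vecF_apply, ContinuousLinearMap.adjoint_inner_left, hV]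
    have h := hG (star a) q.1
    rw [star_star] at h
    rw [h, map_star, ContinuousLinearMap.star_eq_adjoint, ContinuousLinearMap.adjoint_inner_left]
  choose η ξ hηξ using key
  refine ⟨t.card, fun i => η (t.equivFin.symm i), fun i => ξ (t.equivFin.symm i), ?_⟩
  refine ContinuousLinearMap.opNorm_le_bound _ hε.le fun a => ?_
  refine le_trans (le_of_eq ?_) (ht t subset_rfl a)
  congr 1
  rw [sub_apply, sum_apply]
  congr 1
  rw [← Equiv.sum_comp t.equivFin fun i => vecF M (η (t.equivFin.symm i)) (ξ (t.equivFin.symm i)) a,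
    ← Finset.sum_coe_sort t fun q : B => ψ (a * q)]
  exact Finset.sum_congr rfl fun q _ => by rw [Equiv.symm_apply_apply, hηξ]

end Vale.Agent.P082.Every.C2
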