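import Vale.Agent.P082.Every.C2.Defs
import Vale.Agent.P082.Scope.Sums
import Vale.Agent.P078.General.Singular

/-!
# P082 C2: the support family of a normal positive functional
-/

namespace Vale.Agent.P082.Every.C2

open scoped InnerProductSpace ComplexOrder
open Vale.Agent.P078.General

universe u

variable {H : Type u} [NormedAddCommGroup H] [InnerProductSpace ℂ H] [CompleteSpace H]
variable {M : VonNeumannAlgebra H} {ψ : Alg M →L[ℂ] ℂ}

/-- The GNS data of a positive functional. -/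
theorem exists_gns (hpos : ∀ x, 0 ≤ ψ (star x * x)) :
    ∃ (G : Type u) (_ : NormedAddCommGroup G) (_ : InnerProductSpace ℂ G) (_ : CompleteSpace G)
      (π : Alg M →⋆ₐ[ℂ] (G →L[ℂ] G)) (Ω : G),
      ∀ a b, ψ (star a * b) = ⟪π a Ω, π b Ω⟫_ℂ := by
  letI := CStarAlgebra.spectralOrder (Alg M)
  haveI := CStarAlgebra.spectralOrderedRing (Alg M)
  let φ : Alg M →ₚ[ℂ] ℂ := PositiveLinearMap.mk₀ ψ.toLinearMap fun a ha => by
    obtain ⟨b, rfl⟩ := CStarAlgebra.nonneg_iff_eq_star_mul_self.1 ha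
    exact hpos b
  refine ⟨φ.GNS, inferInstance, inferInstance, inferInstance, φ.gnsStarAlgHom,
    (φ.toPreGNS 1 : φ.GNS), fun a b => ?_⟩
  have h : ∀ z, φ.gnsStarAlgHom z (φ.toPreGNS 1 : φ.GNS) = (φ.toPreGNS z : φ.GNS) := fun z => by
    simp
  rw [h, h, UniformSpace.Completion.inner_coe, φ.preGNS_inner_def, φ.ofPreGNS_toPreGNS,
    φ.ofPreGNS_toPreGNS]
  rfl

theorem coe_proj {a : Alg M} (ha : IsStarProjection a) :
    IsStarProjection (a : H →L[ℂ] H) :=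
  ⟨congrArg Subtype.val ha.isIdempotentElem.eq, congrArg Subtype.val ha.isSelfAdjoint.star_eq⟩

theorem proj_mk {a : H →L[ℂ] H} (haM : a ∈ M) (ha : IsStarProjection a) :
    IsStarProjection (⟨a, haM⟩ : Alg M) :=
  ⟨Subtype.ext ha.isIdempotentElem.eq, Subtype.ext ha.isSelfAdjoint.star_eq⟩

theorem re_nonneg_proj (hpos : ∀ x, 0 ≤ ψ (star x * x)) {a : Alg M} (ha : IsStarProjection a) :
    0 ≤ (ψ a).re := by
  have h := (Complex.nonneg_iff.1 (hpos a)).1
  rwa [ha.isSelfAdjoint.star_eq, ha.isIdempotentElem.eq] at h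

/-- `ψ` is dominated by a vector state on the corner of `q`. -/
def Good (ψ : Alg M →L[ℂ] ℂ) (q : Alg M) : Prop :=
  ∃ ξ : H, ev ξ q = ξ ∧ ∀ x, (ψ (star (x * q) * (x * q))).re ≤ ‖ev ξ x‖ ^ 2

/-- Below every nonzero projection there is a nonzero good one. -/
theorem exists_good (hpos : ∀ x, 0 ≤ ψ (star x * x)) {p : H →L[ℂ] H} (hpM : p ∈ M)
    (hp : IsStarProjection p) (hp0 : p ≠ 0) :
    ∃ q : Alg M, IsStarProjection q ∧ (q : H →L[ℂ] H) * p = q ∧ Good ψ q ∧ q ≠ 0 := by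
  classical
  have hψp := re_nonneg_proj hpos (proj_mk hpM hp)
  set P : Alg M := ⟨p, hpM⟩
  obtain ⟨ξ, hpξ, hξ⟩ : ∃ ξ : H, p ξ = ξ ∧ (ψ P).re < ‖ξ‖ ^ 2 := by
    obtain ⟨v, hv⟩ : ∃ v, p v ≠ 0 := by
      by_contra h
      push Not at h
      exact hp0 (ContinuousLinearMap.ext h)
    set c : ℝ := ((ψ P).re + 1) / ‖p v‖
    refine ⟨(c : ℂ) • p v, ?_, ?_⟩
    · rw [map_smul]
      exact congrArg _ (congrArg (fun T : H →L[ℂ] H => T v) hp.isIdempotentElem.eq)
    · rw [norm_smul, Complex.norm_real, Real.norm_eq_abs,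
        abs_of_nonneg (by positivity : 0 ≤ c), div_mul_cancel₀ _ (norm_ne_zero_iff.2 hv)]
      nlinarith
  let Ms : Submodule ℂ (H →L[ℂ] H) := Subalgebra.toSubmodule M.toStarSubalgebra.toSubalgebra
  let ψs : Ms →ₗ[ℂ] ℂ :=
    { toFun := fun x => ψ ⟨x.1, x.2⟩
      map_add' := fun a b => map_add ψ (⟨a.1, a.2⟩ : Alg M) ⟨b.1, b.2⟩
      map_smul' := fun c a => map_smul ψ c (⟨a.1, a.2⟩ : Alg M) }
  obtain ⟨Ψ, hΨ, -⟩ := exists_extension_norm_eq Ms
    (ψs.mkContinuous ‖ψ‖ fun x => ψ.le_opNorm ⟨x.1, x.2⟩)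
  have hΨψ : ∀ x : Alg M, Ψ (x : H →L[ℂ] H) = ψ x := fun x => hΨ ⟨x.1, x.2⟩
  set om : (H →L[ℂ] H) → ℝ := fun g => ‖g ξ‖ ^ 2
  obtain ⟨z, hzM, hz, hzp, hmax, happ⟩ :=
    exists_max_family M (fun g => om g ≤ (Ψ g).re) p hp
  have hzle : om z ≤ (Ψ z).re := by
    refine le_of_forall_pos_le_add fun ε hε => ?_
    obtain ⟨t, ht, hto, htz, hclose⟩ :=
      happ {ξ} (ε / (2 * ‖ξ‖ + 1)) (div_pos hε (by positivity))
    have hcl := hclose ξ (Finset.mem_singleton_self ξ)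
    set Q := ∑ g ∈ t, g with hQdef
    have hQ : IsStarProjection Q := isStarProjection_sum t _ (fun g hg => (ht g hg).2.1) hto
    have hQM : Q ∈ M := sum_mem fun g hg => (ht g hg).1
    have hQz : Q * z = Q := by
      rw [hQdef, Finset.sum_mul]
      exact Finset.sum_congr rfl htz
    have h1 : om Q ≤ (Ψ Q).re := by
      have e : om Q = ∑ g ∈ t, om g := by
        show ‖(∑ g ∈ t, g) ξ‖ ^ 2 = _
        rw [sum_apply, norm_sq_sum_of_orth t _ fun g hg g' hg' h =>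
          inner_proj_orth (ht g hg).2.1 (hto g hg g' hg' h) _ _]
      rw [e, hQdef, map_sum, Complex.re_sum]
      exact Finset.sum_le_sum fun g hg => (ht g hg).2.2
    have h2 : (Ψ Q).re ≤ (Ψ z).re := by
      have h3 := re_nonneg_proj hpos (proj_mk (sub_mem hzM hQM) (hQ.sub_of_mul_eq_left hz hQz))
      rw [← hΨψ] at h3
      change 0 ≤ (Ψ (z - Q)).re at h3
      rw [map_sub, Complex.sub_re] at h3
      linarith
    have h4 : ‖z ξ‖ ≤ ‖Q ξ‖ + ε / (2 * ‖ξ‖ + 1) := by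
      linarith [norm_le_norm_add_norm_sub' (z ξ) (Q ξ)]
    have h5 : ‖Q ξ‖ ≤ ‖ξ‖ := norm_proj_le hQ ξ
    have h6 : ‖z ξ‖ ≤ ‖ξ‖ := norm_proj_le hz ξ
    have h7 : ε / (2 * ‖ξ‖ + 1) * (2 * ‖ξ‖ + 1) = ε := div_mul_cancel₀ _ (by positivity)
    have h8 : ‖z ξ‖ ^ 2 ≤ ‖Q ξ‖ ^ 2 + ε := by
      set d := ε / (2 * ‖ξ‖ + 1)
      have hd0 : 0 ≤ d := by positivity
      rcases le_or_gt ‖z ξ‖ ‖Q ξ‖ with h | h
      · nlinarith [norm_nonneg (z ξ)]
      · calc ‖z ξ‖ ^ 2 = ‖Q ξ‖ ^ 2 + (‖z ξ‖ - ‖Q ξ‖) * (‖z ξ‖ + ‖Q ξ‖) := by ring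
          _ ≤ ‖Q ξ‖ ^ 2 + d * (2 * ‖ξ‖ + 1) := by
              have ha : ‖z ξ‖ - ‖Q ξ‖ ≤ d := sub_le_iff_le_add'.2 h4
              nlinarith [mul_le_mul ha (show ‖z ξ‖ + ‖Q ξ‖ ≤ 2 * ‖ξ‖ + 1 by linarith)
                (add_nonneg (norm_nonneg (z ξ)) (norm_nonneg (Q ξ))) hd0]
          _ = _ := by rw [h7]
    show ‖z ξ‖ ^ 2 ≤ _
    change ‖Q ξ‖ ^ 2 ≤ _ at h1
    linarith
  set q := p - z with hqdef
  have hq : IsStarProjection q := hz.sub_of_mul_eq_left hp hzp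
  have hqM : q ∈ M := sub_mem hpM hzM
  have hpz : p * z = z := by
    have := congrArg star hzp
    simpa only [star_mul, hp.isSelfAdjoint.star_eq, hz.isSelfAdjoint.star_eq] using this
  have hqp : q * p = q := by rw [hqdef, sub_mul, hp.isIdempotentElem.eq, hzp]
  have hq0 : q ≠ 0 := by
    intro h
    have hpz' : p = z := sub_eq_zero.1 h
    have hzle' : ‖z ξ‖ ^ 2 ≤ (Ψ z).re := hzle
    rw [← hpz', hpξ, hΨψ P] at hzle'
    linarith
  have hlow : ∀ g ∈ M, IsStarProjection g → g * q = g → (Ψ g).re ≤ om g := by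
    intro g hgM hg hgq
    rcases le_or_gt (om g) ((Ψ g).re) with h | h
    · have hgp : g * p = g := by rw [← hgq, mul_assoc, hqp]
      have hgz : g * z = 0 := by
        rw [← hgq, mul_assoc, hqdef, sub_mul, hz.isIdempotentElem.eq, hpz, sub_self, mul_zero]
      rw [hmax g hgM hg hgp h hgz]
      simp [om]
    · exact h.le
  refine ⟨⟨q, hqM⟩, proj_mk hqM hq, hqp, ⟨q ξ, ?_, fun x => ?_⟩,
    fun h => hq0 (congrArg Subtype.val h)⟩
  · exact congrArg (fun T : H →L[ℂ] H => T ξ) hq.isIdempotentElem.eq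
  set b : H →L[ℂ] H := x.1 with hb
  set T := star (b * q) * (b * q) with hT
  have hTM : T ∈ M := mul_mem (star_mem (mul_mem x.2 hqM)) (mul_mem x.2 hqM)
  have hqT : q * T = T := by
    rw [hT, star_mul, hq.isSelfAdjoint.star_eq]
    simp [← mul_assoc, hq.isIdempotentElem.eq]
  have hTq : T * q = T := by rw [hT]; simp [mul_assoc, hq.isIdempotentElem.eq]
  set h : (H →L[ℂ] H) → ℝ :=
    fun S => (⟪q ξ, S (q ξ)⟫_ℂ).re - (Ψ (q * S * q)).re with hh
  have hb2 : ∀ S, |h S| ≤ (‖ξ‖ ^ 2 + ‖Ψ‖) * ‖S‖ := by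
    intro S
    have h1 : |(⟪q ξ, S (q ξ)⟫_ℂ).re| ≤ ‖ξ‖ ^ 2 * ‖S‖ := by
      refine (Complex.abs_re_le_norm _).trans ((norm_inner_le_norm _ _).trans ?_)
      rw [pow_two, mul_assoc, mul_comm ‖ξ‖ ‖S‖]
      exact mul_le_mul (norm_proj_le hq _)
        ((S.le_opNorm _).trans (mul_le_mul_of_nonneg_left (norm_proj_le hq _) (norm_nonneg _)))
        (norm_nonneg _) (norm_nonneg _)
    have h2 : |(Ψ (q * S * q)).re| ≤ ‖Ψ‖ * ‖S‖ := by
      refine (Complex.abs_re_le_norm _).trans ((Ψ.le_opNorm _).trans ?_)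
      refine mul_le_mul_of_nonneg_left (norm_mul₃_le.trans ?_) (norm_nonneg Ψ)
      calc ‖q‖ * ‖S‖ * ‖q‖ ≤ 1 * ‖S‖ * 1 := by
            gcongr <;> exact opNorm_proj_le_one hq
        _ = ‖S‖ := by ring
    refine (abs_sub _ _).trans ?_
    linarith
  have hadd : ∀ S S', h (S + S') = h S + h S' := fun S S' => by
    simp [hh, mul_add, add_mul]
    ring
  have hsmul : ∀ (r : ℝ) S, h ((r : ℂ) • S) = r * h S := fun r S => by
    simp [hh, mul_sub]
  have hproj : ∀ g ∈ M, IsStarProjection g → Commute q g → 0 ≤ h g := by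
    intro g hgM hg hqg
    have e1 : q * g * q = q * g := by
      rw [mul_assoc, ← hqg.eq, ← mul_assoc, hq.isIdempotentElem.eq]
    have hgq : IsStarProjection (q * g) := hq.mul hg hqg
    have h7 := hlow _ (mul_mem hqM hgM) hgq e1
    simp only [hh, e1, sub_nonneg]
    refine h7.trans (le_of_eq ?_)
    show ‖(q * g) ξ‖ ^ 2 = _
    rw [star_proj_apply_norm_sq hgq, inner_sa hgq.isSelfAdjoint, inner_sa hq.isSelfAdjoint]
    congr 1
    exact (congrArg (fun S : H →L[ℂ] H => ⟪ξ, S ξ⟫_ℂ) e1).symm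
  have h0T := nonneg_of_proj_nonneg M hTM (star_mul_self_nonneg _)
    (hqT.trans hTq.symm : Commute q T) h (by positivity) hadd hsmul hb2 hproj
  have hT1 : h T = ‖b (q ξ)‖ ^ 2 - (ψ (star (x * ⟨q, hqM⟩) * (x * ⟨q, hqM⟩))).re := by
    simp only [hh, hqT, hTq]
    congr 1
    · have hqq : q (q ξ) = q ξ := congrArg (fun S : H →L[ℂ] H => S ξ) hq.isIdempotentElem.eq
      rw [hT, mul_apply_eq_comp, ContinuousLinearMap.star_eq_adjoint,
        ContinuousLinearMap.adjoint_inner_right, mul_apply_eq_comp, hqq]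
      exact inner_self_eq_norm_sq (𝕜 := ℂ) (b (q ξ))
    · rw [← hΨψ]
      rfl
  show _ ≤ ‖b (q ξ)‖ ^ 2
  linarith

/-- An orthogonal family of good projections adding up to `1`. -/
theorem exists_good_family (hpos : ∀ x, 0 ≤ ψ (star x * x)) :
    ∃ B : Set (Alg M), (∀ q ∈ B, IsStarProjection q) ∧ (∀ q ∈ B, Good ψ q) ∧
      (∀ q ∈ B, ∀ q' ∈ B, q ≠ q' → q * q' = 0) ∧
      ∀ (v : H) (ε : ℝ), 0 < ε → ∃ t : Finset B, ‖ev v (1 - ∑ q ∈ t, (q : Alg M))‖ < ε := by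
  classical
  set S : Set (Set (Alg M)) := {B | (∀ q ∈ B, IsStarProjection q ∧ Good ψ q) ∧
    ∀ q ∈ B, ∀ q' ∈ B, q ≠ q' → q * q' = 0} with hS
  obtain ⟨B, ⟨hB1, hB2⟩, hmax⟩ := zorn_subset S fun c hc hchain => by
    refine ⟨⋃₀ c, ⟨?_, ?_⟩, fun a ha => Set.subset_sUnion_of_mem ha⟩
    · rintro q ⟨a, ha, hq⟩
      exact (hc ha).1 q hq
    · rintro q ⟨a, ha, hq⟩ q' ⟨b, hb, hq'⟩ hne
      rcases hchain.total ha hb with h | h
      · exact (hc hb).2 q (h hq) q' hq' hne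
      · exact (hc ha).2 q hq q' (h hq') hne
  have hd : Scope.IsDiag (fun i : B => (i.1 : H →L[ℂ] H)) fun i => (i.1 : H →L[ℂ] H) :=
    { proj := fun i => coe_proj (hB1 _ i.2).1
      orth := fun i j hij =>
        congrArg Subtype.val (hB2 _ i.2 _ j.2 fun h => hij (Subtype.ext h))
      left := fun i => (coe_proj (hB1 _ i.2).1).isIdempotentElem.eq
      right := fun i => (coe_proj (hB1 _ i.2).1).isIdempotentElem.eq
      norm_le := fun i => opNorm_proj_le_one (coe_proj (hB1 _ i.2).1) }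
  set z := hd.sum with hz
  have hzM : z ∈ M := hd.sum_mem fun i => i.1.2
  have hzp : IsStarProjection z := by
    refine ⟨?_, ?_⟩
    · show z * z = z
      rw [hz, hd.sum_mul hd]
      refine ContinuousLinearMap.ext fun v => ?_
      rw [Scope.IsDiag.sum_apply, Scope.IsDiag.sum_apply]
      exact tsum_congr fun i => congrArg (· v) (hd.right i)
    · show star z = z
      rw [hz, hd.star_sum]
      refine ContinuousLinearMap.ext fun v => ?_
      rw [Scope.IsDiag.sum_apply, Scope.IsDiag.sum_apply]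
      exact tsum_congr fun i => congrArg (· v) (hd.proj i).isSelfAdjoint.star_eq
  have hz1 : z = 1 := by
    by_contra hne
    obtain ⟨q, hq, hqp, hgood, hq0⟩ := exists_good hpos (sub_mem (one_mem M) hzM) hzp.one_sub
      (sub_ne_zero.2 (Ne.symm hne))
    have horth : ∀ i : B, i.1 * q = 0 ∧ q * i.1 = 0 := fun i => by
      have hiz : i.1.1 * z = i.1.1 := ContinuousLinearMap.ext fun v => by
        rw [mul_apply_eq_comp, hz, Scope.IsDiag.sum_apply, i.1.1.map_tsum (hd.summable v),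
          tsum_eq_single i fun j hj => by
            rw [← mul_apply_eq_comp, hd.orth i j (Ne.symm hj), zero_apply],
          ← mul_apply_eq_comp, hd.right i]
      have hzi : z * i.1.1 = i.1.1 := by
        have := congrArg star hiz
        rwa [star_mul, hzp.isSelfAdjoint.star_eq, (hd.proj i).isSelfAdjoint.star_eq] at this
      have h1 : q * i.1 = 0 := Subtype.ext <| by
        show q.1 * i.1.1 = 0
        rw [← hqp, mul_assoc, sub_mul, one_mul, hzi, sub_self, mul_zero]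
      refine ⟨?_, h1⟩
      have := congrArg star h1
      rwa [star_mul, hq.isSelfAdjoint.star_eq, (hB1 _ i.2).1.isSelfAdjoint.star_eq,
        star_zero] at this
    have hin : insert q B ∈ S := by
      refine ⟨?_, ?_⟩
      · rintro a (rfl | ha)
        exacts [⟨hq, hgood⟩, hB1 a ha]
      · rintro a (rfl | ha) b (rfl | hb) hab
        exacts [absurd rfl hab, (horth ⟨b, hb⟩).2, (horth ⟨a, ha⟩).1, hB2 a ha b hb hab]
    have hmem : q ∈ B := hmax hin (Set.subset_insert q B) (Set.mem_insert q B)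
    have h0 := (horth ⟨q, hmem⟩).1
    rw [hq.isIdempotentElem.eq] at h0
    exact hq0 h0
  refine ⟨B, fun q hq => (hB1 q hq).1, fun q hq => (hB1 q hq).2, hB2, fun v ε hε => ?_⟩
  have hs := (hd.summable v).hasSum
  rw [← Scope.IsDiag.sum_apply hd v, ← hz, hz1, one_apply_eq_self] at hs
  obtain ⟨t, ht⟩ := Filter.eventually_atTop.1 (Metric.tendsto_nhds.1 hs ε hε)
  refine ⟨t, ?_⟩
  have e : ev v (1 - ∑ q ∈ t, (q : Alg M)) = v - ∑ q ∈ t, (q.1.1 : H →L[ℂ] H) v := by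
    simp [ev]
  rw [e, norm_sub_rev, ← dist_eq_norm]
  exact ht t le_rfl

/-- The family carries the whole functional. -/
theorem exists_tail (hψ : IsNormalPos ψ) :
    ∃ B : Set (Alg M), (∀ q ∈ B, IsStarProjection q) ∧ (∀ q ∈ B, Good ψ q) ∧
      ∀ ε : ℝ, 0 < ε → ∃ t₀ : Finset B, ∀ t, t₀ ⊆ t → ∀ a : Alg M,
        ‖ψ a - ∑ q ∈ t, ψ (a * q)‖ ≤ ε * ‖a‖ := by
  classical
  obtain ⟨B, hBp, hBg, hBo, happ⟩ := exists_good_family hψ.pos
  obtain ⟨G, _, _, _, π, Ω, hG⟩ := exists_gns hψ.pos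
  refine ⟨B, hBp, hBg, fun ε hε => ?_⟩
  have hsum : ∀ t : Finset B, IsStarProjection (∑ q ∈ t, (q : Alg M)) := fun t => by
    refine ⟨?_, isSelfAdjoint_sum _ fun k _ => (hBp _ k.2).isSelfAdjoint⟩
    show (∑ k ∈ t, (k : Alg M)) * (∑ k ∈ t, (k : Alg M)) = _
    rw [Finset.sum_mul]
    refine Finset.sum_congr rfl fun k hk => ?_
    rw [Finset.mul_sum, Finset.sum_eq_single k]
    · exact (hBp _ k.2).isIdempotentElem.eq
    · exact fun l _ h => hBo _ k.2 _ l.2 fun e => h (Subtype.ext e).symm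
    · exact fun h => absurd hk h
  have hmono : ∀ {t t' : Finset B}, t ⊆ t' →
      (∑ q ∈ t', (q : Alg M)) * (∑ q ∈ t, (q : Alg M)) = ∑ q ∈ t, (q : Alg M) := by
    intro t t' htt
    rw [Finset.mul_sum]
    refine Finset.sum_congr rfl fun k hk => ?_
    rw [Finset.sum_mul, Finset.sum_eq_single k]
    · exact (hBp _ k.2).isIdempotentElem.eq
    · exact fun l _ h => hBo _ l.2 _ k.2 fun e => h (Subtype.ext e)
    · exact fun h => absurd (htt hk) h
  have hdown : IsDown (Set.range fun t : Finset B => 1 - ∑ q ∈ t, (q : Alg M)) :=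
    { proj := fun a ⟨t, ht⟩ => ht ▸ (hsum t).one_sub
      nonempty := Set.range_nonempty _
      directed := by
        rintro _ ⟨t, rfl⟩ _ ⟨t', rfl⟩
        refine ⟨_, ⟨t ∪ t', rfl⟩, ?_, ?_⟩
        · simp only [sub_mul, mul_sub, mul_one, one_mul, hmono Finset.subset_union_left]
          abel
        · simp only [sub_mul, mul_sub, mul_one, one_mul, hmono Finset.subset_union_right]
          abel
      tendsto := fun v ε hε => by
        obtain ⟨t, ht⟩ := happ v ε hε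
        exact ⟨_, ⟨t, rfl⟩, ht⟩ }
  obtain ⟨_, ⟨t₀, rfl⟩, hsmall⟩ := hψ.small _ hdown ((ε / (‖Ω‖ + 1)) ^ 2) (by positivity)
  refine ⟨t₀, fun t ht a => ?_⟩
  set R := 1 - ∑ q ∈ t, (q : Alg M) with hR
  have hRp : IsStarProjection R := (hsum t).one_sub
  have e1 : ψ a - ∑ q ∈ t, ψ (a * q) = ψ (a * R) := by
    rw [hR, mul_sub, mul_one, map_sub, Finset.mul_sum, map_sum]
  have hRn : ‖π R Ω‖ ^ 2 = (ψ R).re := by
    have h := hG R R
    rw [hRp.isSelfAdjoint.star_eq, hRp.isIdempotentElem.eq] at h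
    rw [h]
    exact (inner_self_eq_norm_sq (𝕜 := ℂ) _).symm
  have hRle : (ψ R).re ≤ (ε / (‖Ω‖ + 1)) ^ 2 := by
    refine le_trans ?_ hsmall
    have hp : IsStarProjection ((∑ q ∈ t, (q : Alg M)) - ∑ q ∈ t₀, (q : Alg M)) := by
      refine (hsum t₀).sub_of_mul_eq_left (hsum t) ?_
      have := congrArg star (hmono ht)
      rwa [star_mul, (hsum t).isSelfAdjoint.star_eq, (hsum t₀).isSelfAdjoint.star_eq] at this
    have h3 := re_nonneg_proj hψ.pos hp
    simp only [hR, map_sub, Complex.sub_re] at h3 ⊢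
    linarith
  have hpi : ‖π R Ω‖ ≤ ε / (‖Ω‖ + 1) :=
    le_of_pow_le_pow_left₀ two_ne_zero (by positivity) (hRn.trans_le hRle)
  rw [e1]
  have h := hG (star a) R
  rw [star_star] at h
  rw [h]
  have hop : ‖π (star a) Ω‖ ≤ ‖a‖ * ‖Ω‖ := by
    refine ((π (star a)).le_opNorm Ω).trans (mul_le_mul_of_nonneg_right ?_ (norm_nonneg _))
    exact (NonUnitalStarAlgHom.norm_apply_le π _).trans (norm_star a).le
  refine (norm_inner_le_norm _ _).trans ((mul_le_mul hop hpi (norm_nonneg _) (by positivity)).trans ?_)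
  rw [mul_assoc, mul_comm ε ‖a‖]
  refine mul_le_mul_of_nonneg_left ?_ (norm_nonneg _)
  rw [← mul_div_assoc, div_le_iff₀ (by positivity)]
  nlinarith [norm_nonneg Ω]

end Vale.Agent.P082.Every.C2
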